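import Vale.Agent.P275LM.Fin
import Vale.Agent.P275HN.Fam

/-! # P275: the nilpotent cone is the attractor of the scaling -/

set_option linter.all false

open scoped Matrix.Norms.Operator Topology
open Filter Set Matrix Metric

noncomputable section

namespace Vale.Agent.P275LM

open Vale.Agent.P275GC
open Vale.Agent.P275NA (Fm Cy Mn)
open Vale.Agent.P275MO hiding Dat
open Vale.Agent.P275MB (sc fl)
open Vale.Agent.P275Z (bor)
open Vale.Agent.P275HN (Nil hV hY M0)

variable {C : Type} [TopologicalSpace C] {A : At C} {n : ℕ} {l : Cy A ℂ} {e : ℤ} {τ : Ty n}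

theorem zero_of_bdd {X : Type*} [TopologicalSpace X] {f : X → ℂ} {K : Set X} (hK : IsCompact K)
    (hf : ContinuousOn f K) {u : ℝ → X} (hu : ∀ t, 0 ≤ t → u t ∈ K) {c : ℂ} {k : ℕ} (hk : k ≠ 0)
    (h : ∀ t : ℝ, f (u t) = Complex.exp t ^ k * c) : c = 0 := by
  by_contra hc
  obtain ⟨M, hM⟩ := hK.exists_bound_of_continuousOn hf
  have p := norm_pos_iff.2 hc
  have t0 : 0 ≤ |M| / ‖c‖ := by positivity
  have a := hM _ (hu _ t0)
  rw [h, norm_mul, norm_pow, Complex.norm_exp_ofReal] at a
  have b := (Real.add_one_le_exp (|M| / ‖c‖)).trans (le_self_pow₀ (Real.one_le_exp t0) hk)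
  have := mul_le_mul_of_nonneg_right b p.le
  rw [add_mul, div_mul_cancel₀ _ p.ne'] at this
  linarith [le_abs_self M]

theorem nil_sc (s : ℂˣ) {y : Mod A l τ} (h : y ∈ Nil A l τ) : sc s y ∈ Nil A l τ :=
  ⟨by rw [P275MB.lam_sc, h.1, mul_zero], by rw [P275MB.η_sc, h.2.1, smul_zero],
    by rw [P275HN.hV_sc, h.2.2, P275HN.sV_zero]⟩

theorem nil_bdd [T2Space C] (w : Mod A l τ) (K : Set (Mod A l τ)) (hK : IsCompact K)
    (h : ∀ t, 0 ≤ t → fl t w ∈ K) : w ∈ Nil A l τ := by
  have a : w.lam = 0 := zero_of_bdd hK P275MB.cont_lam.continuousOn h one_ne_zero fun t =>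
    (P275MB.lam_sc _ _).trans (by rw [pow_one]; rfl)
  refine ⟨a, funext fun k => zero_of_bdd (f := fun y => y.η k) hK
    ((continuous_apply k).comp P275MB.cont_η).continuousOn h one_ne_zero fun t =>
      (congrFun (P275MB.η_sc _ _) k).trans (by rw [pow_one]; rfl), funext fun j => funext fun q =>
    zero_of_bdd (f := fun y => hV y j q) (hK.inter_right (isClosed_eq P275MB.cont_lam
      (continuous_const (y := (0 : ℂ))))) (ContinuousOn.mono ?_ inter_subset_right)
      (u := fun t => fl t w) (fun t ht => ⟨h t ht, (P275MB.lam_sc _ _).trans (by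
        rw [a, mul_zero])⟩) (Nat.sub_ne_zero_of_lt q.2.2)
      fun t => congrFun (congrFun (P275HN.hV_sc _ w) j) q⟩
  exact continuousOn_iff_continuous_restrict.2
    ((continuous_apply q).comp ((continuous_apply j).comp P275HN.cont_hV))

/-- **ATT** the nilpotent cone is an attractor as soon as it is compact -/
theorem att_nil (S : Std A l n e) (hτ : bor n ≤ τ.H) [T2Space (Mod A l τ)]
    (h : IsCompact (Nil A l τ)) : Att fl (Nil A l τ) :=
  have := S.t2
  att_of S hτ h (fun _ _ => nil_sc _) nil_bdd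

theorem cpt_nil (h : IsProperMap fun y : M0 A l τ => hY y.1) : IsCompact (Nil A l τ) := by
  have := A.compactSpace
  have a := (h.isCompact_preimage (isCompact_univ.prod (isCompact_singleton (x := 0)))).image
    continuous_subtype_val
  refine Eq.mp (congrArg IsCompact (Set.ext fun y => ⟨?_, fun b => ?_⟩)) a
  · rintro ⟨y, b, rfl⟩
    exact ⟨y.2, congrArg Prod.fst b.2, congrArg Prod.snd b.2⟩
  · exact ⟨⟨y, b.1⟩, ⟨trivial, Prod.ext b.2.1 b.2.2⟩, rfl⟩

/-- **ATT** from the properness of the Hitchin map -/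
theorem att_hit (S : Std A l n e) (hτ : bor n ≤ τ.H) [T2Space (Mod A l τ)]
    (h : IsProperMap fun y : M0 A l τ => hY y.1) : Att fl (Nil A l τ) :=
  att_nil S hτ (cpt_nil h)

end Vale.Agent.P275LM
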