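import Vale.Agent.P275LM.Att
import Vale.Agent.P275S.Soft

/-! # P275: resolutions of the constant sheaf, exhaustions, attractors -/

set_option linter.all false

open CategoryTheory TopologicalSpace Opposite Limits Set P275S

noncomputable section

namespace Vale.Agent.P275LM

variable {k : Type} [Field k] {X Y : TopCat.{0}} {F G : Cx k X} {p : F ⟶ F} {A B : Set X} {n : ℤ}

/-- sections over an open set, relative to a closed set, from an exhaustion -/
theorem gam_exh [Nice X] (hF : SoftC F) (hp : Homotopy (p ≫ p) p) (hA : IsClosed A)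
    (U : Opens X) (K : ℕ → Set X) (k1 : ∀ m, IsCompact (K m)) (k2 : ∀ m, K m ⊆ U)
    (k3 : Monotone K) (k4 : ∀ x ∈ U, ∃ m, x ∈ interior (K m))
    (h₀ : ∀ m, Van p A (K m) (n - 1)) (h₁ : ∀ m, Van p A (K m) n) (s : sec (F.X n) U)
    (hsA : supp s ⊆ Aᶜ) (hs : app (F.d n (n + 1)) U s = 0) :
    ∃ t : sec (F.X (n - 1)) U, supp t ⊆ Aᶜ ∧ app (F.d (n - 1) n) U t = app (p.f n) U s := by
  choose σ _ s2 W hW s3 s4 using fun m => (hF.2 n).cut (k1 m) (k2 m) s hA.isOpen_compl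
    (inter_subset_right.trans hsA)
  choose t t1 t2 using fun m => h₁ m (σ m)
    (Nv_anti inter_subset_left (mem_Nv.2 (s2 m)))
    (mem_Nv_of_res (s3 m) (by rw [← app_res, s4, app_res, hs, map_zero]))
  have s5 : ∀ m, σ (m + 1) - σ m ∈ Nv (F.X n) (K m) := fun m =>
    mem_Nv_of_res (W := W (m + 1) ⊓ W m)
      (subset_inter ((k3 (Nat.le_succ m)).trans (s3 (m + 1))) (s3 m)) (by
      rw [map_sub, ← res_res _ le_top inf_le_left, s4, ← res_res _ le_top inf_le_right (σ m), s4,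
        res_res, res_res, sub_self])
  have hw : ∀ m, ∃ w : sec (F.X (n - 1 - 1)) ⊤, supp w ⊆ Aᶜ ∧ app (F.d (n - 1 - 1) (n - 1)) ⊤ w -
      app (p.f (n - 1)) ⊤ (t (m + 1) - t m) ∈ Nv _ (K m) := fun m => by
    obtain ⟨w, a, b⟩ := (h₀ m).flex (i := n - 1 - 1) (l := n) (by omega)
      (by omega) (s := t (m + 1) - t m) (sub_mem (Nv_anti (inter_subset_inter_right _
        (k3 (Nat.le_succ m))) (t1 _)) (t1 m)) (by
        have := add_mem (sub_mem (Nv_anti (k3 (Nat.le_succ m)) (t2 (m + 1))) (t2 m))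
          (app_mem_Nv (p.f n) (s5 m))
        rwa [map_sub, show ∀ a b c d : sec (F.X n) ⊤, a - b - (c - d) + (b - d) = a - c from
          fun _ _ _ _ => by abel, ← map_sub] at this)
    obtain ⟨w', -, c, d⟩ := (hF.2 _).cut_top (k1 m) w hA.isOpen_compl fun x hx e =>
      mem_Nv.1 a hx.2 ⟨e, hx.1⟩
    refine ⟨w', c, ?_⟩
    have := add_mem b (app_mem_Nv (F.d (n - 1 - 1) (n - 1)) d)
    rwa [map_sub (app (F.d _ _) ⊤), show ∀ a b c : sec (F.X (n - 1)) ⊤, a - b + (c - a) = c - b from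
      fun _ _ _ => by abel] at this
  choose w w1 w2 using hw
  let u : ℕ → sec (F.X (n - 1)) ⊤ := fun m =>
    app (p.f (n - 1)) ⊤ (t m) - app (F.d (n - 1 - 1) (n - 1)) ⊤ (∑ i ∈ Finset.range m, w i)
  have u1 : ∀ m m', m ≤ m' → u m' - u m ∈ Nv _ (K m) := fun m m' h => by
    induction m', h using Nat.le_induction with
    | base => rw [sub_self]; exact zero_mem _
    | succ a ha ih =>
      have := sub_mem ih (Nv_anti (k3 ha) (w2 a))
      rwa [show u a - u m - (app (F.d (n - 1 - 1) (n - 1)) ⊤ (w a) -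
        app (p.f (n - 1)) ⊤ (t (a + 1) - t a)) = u (a + 1) - u m by
          simp only [u, Finset.sum_range_succ, map_add, map_sub]; abel] at this
  let V : ℕ → Opens X := fun m => ⟨interior (K m), isOpen_interior⟩
  have hV : ∀ m, V m ≤ U := fun m => interior_subset.trans (k2 m)
  obtain ⟨v, hv⟩ := glue (F.X (n - 1)) V U hV
    (fun x hx => Opens.mem_iSup.2 (k4 x hx)) (fun m => res _ le_top (u m)) fun a b => by
      rw [res_res, res_res]
      rcases le_total a b with h | h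
      · exact (res_eq_of_mem_Nv (inter_subset_left.trans interior_subset) (u1 a b h)).symm
      · exact res_eq_of_mem_Nv (inter_subset_right.trans interior_subset) (u1 b a h)
  refine ⟨v - app (hp.hom n (n - 1)) U s, (supp_sub _ _).trans (union_subset (fun x hx e => ?_)
    ((supp_app _ s).trans hsA)), ?_⟩
  · obtain ⟨m, hm⟩ := k4 x hx.1
    have a : x ∈ supp (res _ (hV m) v) := by rw [supp_res]; exact ⟨hx, hm⟩
    rw [hv, supp_res] at a
    have b : u m ∈ Nv _ (A ∩ K m) := sub_mem (app_mem_Nv _ (t1 m)) (app_mem_Nv _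
      (sum_mem fun i _ => Nv_anti inter_subset_left (mem_Nv.2 (w1 i))))
    exact mem_Nv.1 b a.1 ⟨e, interior_subset hm⟩
  · have e := app_homotopy hp (show n - 1 + 1 = n by omega) rfl U s
    rw [hs, map_zero, zero_add, HomologicalComplex.comp_f, app_comp] at e
    rw [map_sub, sub_eq_iff_eq_add', ← e]
    refine loc_ext _ _ _ fun x hx => ?_
    obtain ⟨m, hm⟩ := k4 x hx
    refine ⟨V m ⊓ W m, inf_le_left.trans (hV m), ⟨hm, s3 m (interior_subset hm)⟩, ?_⟩
    have e1 := congrArg (res _ (inf_le_left : V m ⊓ W m ≤ V m)) (hv m)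
    have e2 := congrArg (res _ (inf_le_right : V m ⊓ W m ≤ W m)) (s4 m)
    have e3 := res_eq_of_mem_Nv (W := V m ⊓ W m) (inter_subset_left.trans interior_subset) (t2 m)
    simp only [res_res] at e1 e2
    rw [← app_res, e1, app_res, ← app_res (p.f n), ← app_res (p.f n), ← e2, app_res (p.f n), ← e3,
      app_res]
    simp only [u, map_sub, app_d_d, app_f_d, sub_zero]

/-- an exhaustion of the whole space by compact sets -/
structure Xh (K : ℕ → Set X) : Prop where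
  cpt : ∀ m, IsCompact (K m)
  mono : Monotone K
  cup : ∀ x, ∃ m, x ∈ interior (K m)

theorem van_exh [Nice X] (hF : SoftC F) (hp : Homotopy (p ≫ p) p) (hA : IsClosed A)
    {K : ℕ → Set X} (hK : Xh K) (h₀ : ∀ m, Van p A (K m) (n - 1)) (h₁ : ∀ m, Van p A (K m) n) :
    Van p A univ n := fun s hs hd => by
  rw [inter_univ] at hs ⊢
  obtain ⟨t, a, b⟩ := gam_exh hF hp hA ⊤ K hK.cpt (fun _ => subset_univ _) hK.mono
    (fun x _ => hK.cup x) h₀ h₁ s hs (mem_Nv_univ.1 hd)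
  exact ⟨t, a, mem_Nv_univ.2 (sub_eq_zero.2 b)⟩

/-- a map which is a quasi-isomorphism on `Z` to a complex which is exact off `Z` -/
theorem qis_exh [Nice X] (hF : SoftC F) (hG : SoftC G) (u : F ⟶ G) {Z : Set X} (hZ : IsClosed Z)
    {K : ℕ → Set X} (hK : Xh K) (h1 : ∀ x ∈ Z, QisAt u x) (h2 : ∀ x ∉ Z, ∀ n, ExAt G n x)
    (hv : ∀ m n, Van (𝟙 F) Z (K m) n) : QuasiIso ((mapC (Gam k ⊤)).map u) := by
  have hC := hF.cone hG u
  have a : ∀ m n, Van (𝟙 (CochainComplex.mappingCone u)) ∅ (K m) n := fun m n => by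
    refine van_fil (idemId _) (empty_subset Z) ?_ (van_loc hC (idemId _) isClosed_empty
      ((hK.cpt m).inter_left hZ) fun x hx _ j _ => (qisAt_iff_cone u x).1 (h1 x hx.1) j)
    rw [van_id_iff]
    refine (quasiIso_mapC_iff _ u).1 ⟨fun j => ?_⟩ n
    rw [quasiIsoAt_iff_exactAt _ _ (van_id_iff.1 (hv m j))]
    exact exactAt_tab hG hZ (hK.cpt m) fun x _ hx i _ => h2 x hx i
  rw [quasiIso_mapC_iff]
  intro n
  rw [exactAt_gam_iff]
  intro s hs
  obtain ⟨t, -, b⟩ := van_exh hC (idemId _) isClosed_empty hK (fun m => a m _) (fun m => a m n) s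
    (mem_Nv.2 (by simp)) (mem_Nv_univ.2 hs)
  exact ⟨t, sub_eq_zero.1 (mem_Nv_univ.1 b)⟩

/-- `F` with the unit `e` is a resolution of the constants at `x` -/
structure RsAt (F : Cx k X) (e : sec (F.X 0) ⊤) (x : X) : Prop where
  ex : ∀ n, n ≠ 0 → ExAt F n x
  loc : ∀ U, x ∈ U → ∀ s : sec (F.X 0) U, app (F.d 0 1) U s = 0 →
    ∃ V, ∃ hV : V ≤ U, x ∈ V ∧ ∃ a : k, res _ hV s = a • res _ le_top e
  ne : ∀ U : Opens X, x ∈ U → ∀ a : k, a • res _ (le_top : U ≤ ⊤) e = 0 → a = 0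

/-- the complex vanishes in negative degrees -/
def Ng (F : Cx k X) : Prop := ∀ j < 0, ∀ U (s : sec (F.X j) U), s = 0

/-- a soft resolution of the constants with unit `e` -/
structure Rs (F : Cx k X) (e : sec (F.X 0) ⊤) : Prop where
  soft : SoftC F
  neg : Ng F
  de : app (F.d 0 1) ⊤ e = 0
  loc : ∀ x, RsAt F e x

variable {e : sec (F.X 0) ⊤} {e' : sec (G.X 0) ⊤}

theorem ng_of_ge (F : Cx k X) [F.IsStrictlyGE 0] : Ng F := fun j hj _ s =>
  sec_eq_zero (F.isZero_of_isStrictlyGE 0 j hj) s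

theorem RsAt.qis {x : X} (h : RsAt F e x) (h' : RsAt G e' x) (de : app (F.d 0 1) ⊤ e = 0)
    (hG : Ng G) (u : F ⟶ G) (hu : app (u.f 0) ⊤ e = e') : QisAt u x := by
  intro n
  by_cases hn : n = 0
  · subst hn
    constructor
    · intro U hx s hs
      obtain ⟨V, hV, xV, a, b⟩ := h'.loc U hx s hs
      refine ⟨V, hV, xV, a • res _ le_top e, ?_, 0, ?_⟩
      · rw [map_smul, app_res]
        exact (congrArg (fun z => a • res _ le_top z) de).trans (by simp)
      · rw [map_zero, add_zero, map_smul, app_res, hu, b]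
    · intro U hx s hs t ht
      obtain ⟨V, hV, xV, a, b⟩ := h.loc U hx s hs
      have := congrArg (res _ hV) ht
      rw [hG _ (by omega) _ t, map_zero, map_zero, ← app_res, b, map_smul, app_res, hu] at this
      exact ⟨V, hV, xV, 0, by rw [map_zero, b, h'.ne V xV a this.symm, zero_smul]⟩
  · constructor
    · intro U hx s hs
      obtain ⟨V, hV, xV, t, ht⟩ := h'.ex n hn U hx s hs
      exact ⟨V, hV, xV, 0, map_zero _, t, by rw [map_zero, zero_add, ht]⟩
    · exact fun U hx s hs _ _ => h.ex n hn U hx s hs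

/-- the unit defined by an augmentation -/
def unit (ι : cstAt k X 0 ⟶ F) : sec (F.X 0) ⊤ := app (ι.f 0) ⊤
  (app (HomologicalComplex.singleObjXSelf (ComplexShape.up ℤ) 0 (cst k X)).inv ⊤ (cstOne k ⊤))

theorem cstAt_zero {n : ℤ} (hn : n ≠ 0) (U : Opens X) (s : sec ((cstAt k X 0).X n) U) : s = 0 :=
  sec_eq_zero (HomologicalComplex.isZero_single_obj_X (ComplexShape.up ℤ) 0 (cst k X) n hn) s

theorem d_unit (ι : cstAt k X 0 ⟶ F) : app (F.d 0 1) ⊤ (unit ι) = 0 := by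
  exact (app_f_d ι 0 1 ⊤ _).symm.trans
    ((congrArg _ (cstAt_zero one_ne_zero _ _)).trans (map_zero _))

theorem rsAt_unit (ι : cstAt k X 0 ⟶ F) (hF : Ng F) {x : X} (h : QisAt ι x) :
    RsAt F (unit ι) x := by
  let j : (cstAt k X 0).X 0 ≅ cst k X :=
    HomologicalComplex.singleObjXSelf (ComplexShape.up ℤ) 0 (cst k X)
  have ho : ∀ V : Opens X, res _ le_top (unit ι) = app (ι.f 0) V (app j.inv V (cstOne k V)) :=
    fun V => by rw [← res_cstOne (le_top : V ≤ ⊤), app_res, app_res]; rfl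
  refine ⟨fun n hn => (h.exAt_iff n).1 fun U hx s _ =>
    ⟨U, le_rfl, hx, 0, by rw [cstAt_zero hn U s, map_zero, map_zero]⟩, fun U hx s hs => ?_,
    fun U hx a ha => ?_⟩
  · obtain ⟨V, hV, xV, u, -, t, b⟩ := (h 0).1 U hx s hs
    obtain ⟨W, hW, xW, a, c⟩ := exists_cst_eq (app j.hom V u) xV
    refine ⟨W, hW.trans hV, xW, a, ?_⟩
    rw [← res_res _ hV hW, ← b, hF _ (by omega) _ t, map_zero, add_zero, ← app_res, ho,
      ← map_smul, ← map_smul, ← c, ← app_res, ← app_comp j.hom, j.hom_inv_id, app_id]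
  · obtain ⟨V, hV, xV, u, b⟩ := (h 0).2 U hx (a • app j.inv U (cstOne k U))
      (cstAt_zero (by omega) _ _) 0 (by rw [map_zero, map_smul, ← ho, ha])
    rw [cstAt_zero (by omega) _ u, map_zero] at b
    have := congrArg (app j.hom V) b
    rw [map_zero, app_res, map_smul, ← app_comp, j.inv_hom_id, app_id, map_smul,
      res_cstOne] at this
    have := congrArg (fun z : LocallyConstant V k => z ⟨x, xV⟩) this
    change (0 : k) = a * 1 at this
    rw [← mul_one a, ← this]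

theorem rs_unit (ι : cstAt k X 0 ⟶ F) [QuasiIso ι] [F.IsStrictlyGE 0] (hF : SoftC F) :
    Rs F (unit ι) :=
  ⟨hF, ng_of_ge F, d_unit ι, fun x => rsAt_unit ι (ng_of_ge F) (qisAt_of_quasiIso ι x)⟩

theorem vn_iff : Van (𝟙 F) A B n ↔
    Ab.Vn (fun i j => app (F.d i j) ⊤) (fun i => P275SO.gm (F.X i)) A B n := van_iff

theorem Rs.res [Nice X] (h : Rs F e) :
    Ab.Res (fun i j => app (F.d i j) ⊤) (fun i => P275SO.gm (F.X i)) e where
  dat := h.soft.dat (idemId F)
  neg j hj s := h.neg j hj ⊤ s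
  de := h.de
  loc0 x s hs := by
    obtain ⟨V, hV, xV, a⟩ := (not_mem_supp (U := ⊤) (x := x) trivial).1 (P275SO.mem_gm.1 hs)
    obtain ⟨W, hW, xW, c, b⟩ := (h.loc x).loc V xV (P275S.res _ hV s) (by rw [app_res, a])
    exact ⟨c, P275SO.mem_gm.2 ((not_mem_supp (U := ⊤) (x := x) trivial).2 ⟨W, le_top, xW, by
      rw [map_sub, map_smul, ← b, res_res, sub_self]⟩)⟩
  ne x a ha := by
    obtain ⟨V, hV, xV, b⟩ := (not_mem_supp (U := ⊤) (x := x) trivial).1 (P275SO.mem_gm.1 ha)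
    exact (h.loc x).ne V xV a (by rw [← map_smul, b])
  locp x j hj := vn_iff.1 (van_pt (h.soft.2 _) (notMem_empty x) ((h.loc x).ex j hj.ne'))

variable {φ : ℝ → X → X} {N Z : Set X}

theorem Exh.xh {B : ℝ → Set X} (E : Exh φ N B) : Xh fun m : ℕ => B m :=
  ⟨fun _ => E.cpt _, fun _ _ h => E.mono (Nat.cast_le.2 h), fun x =>
    let ⟨r, a⟩ := E.cup x
    ⟨⌈r⌉₊, interior_mono (E.mono (Nat.le_ceil r)) a⟩⟩

/-- **ATT**: the cohomology relative to a closed invariant set which contains `N` vanishes -/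
theorem att_van [Nice X] (R : Rs F e) (h : Att φ N) (hZ : IsClosed Z)
    (hi : ∀ t, ∀ x ∈ Z, φ t x ∈ Z) (hNZ : N ⊆ Z) (n : ℤ) : Van (𝟙 F) Z univ n := by
  obtain ⟨B, E⟩ := h.exh
  have a : ∀ r j, Van (𝟙 F) Z (B r) j := fun r j =>
    vn_iff.2 (att_cpt R.res h.toFlo h.inv E hZ hi hNZ r j)
  exact van_exh R.soft (idemId F) hZ E.xh (fun _ => a _ _) fun _ => a _ _

/-- **ATT** for a chain map -/
theorem att_qis [Nice X] (R : Rs F e) (h : Att φ N) (hZ : IsClosed Z)
    (hi : ∀ t, ∀ x ∈ Z, φ t x ∈ Z) (hNZ : N ⊆ Z) (hG : SoftC G) (u : F ⟶ G)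
    (h1 : ∀ x ∈ Z, QisAt u x) (h2 : ∀ x ∉ Z, ∀ n, ExAt G n x) :
    QuasiIso ((mapC (Gam k ⊤)).map u) := by
  obtain ⟨B, E⟩ := h.exh
  exact qis_exh R.soft hG u hZ E.xh h1 h2 fun _ j =>
    vn_iff.2 (att_cpt R.res h.toFlo h.inv E hZ hi hNZ _ j)

end Vale.Agent.P275LM
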