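import Mathlib

/-! # P275: flows with a compact attractor -/

set_option linter.all false

namespace Vale.Agent.P275LM

open Set Topology Filter

variable {X : Type*} [TopologicalSpace X]

/-- a continuous action of the real line -/
structure Flo (φ : ℝ → X → X) : Prop where
  cont : Continuous fun p : ℝ × X => φ p.1 p.2
  zero : ∀ x, φ 0 x = x
  add : ∀ s t x, φ (s + t) x = φ s (φ t x)

/-- `N` is a compact invariant set which every orbit approaches, and which contains every point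
with a bounded positive half orbit -/
structure Att (φ : ℝ → X → X) (N : Set X) : Prop extends Flo φ where
  cpt : IsCompact N
  inv : ∀ t, ∀ x ∈ N, φ t x ∈ N
  near : ∀ y, ∀ U, IsOpen U → N ⊆ U → ∃ t, φ t y ∈ U
  bdd : ∀ w K, IsCompact K → (∀ t, 0 ≤ t → φ t w ∈ K) → w ∈ N

variable {φ : ℝ → X → X} {N : Set X}

theorem Flo.c1 (h : Flo φ) (t : ℝ) : Continuous (φ t) :=
  h.cont.comp (continuous_const.prodMk continuous_id)

theorem Flo.c2 (h : Flo φ) (x : X) : Continuous fun t => φ t x :=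
  h.cont.comp (continuous_id.prodMk continuous_const)

theorem Flo.neg (h : Flo φ) (t : ℝ) (x : X) : φ (-t) (φ t x) = x := by
  rw [← h.add, neg_add_cancel, h.zero]

theorem Flo.neg' (h : Flo φ) (t : ℝ) (x : X) : φ t (φ (-t) x) = x := by
  rw [← h.add, add_neg_cancel, h.zero]

/-- the time `t` map as a homeomorphism -/
def Flo.hm (h : Flo φ) (t : ℝ) : X ≃ₜ X :=
  ⟨⟨φ t, φ (-t), h.neg t, h.neg' t⟩, h.c1 t, h.c1 (-t)⟩

/-- a compact neighbourhood of `N` which is mapped into itself in negative times -/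
theorem exists_trap [T2Space X] (h : Flo φ) (hN : ∀ t, ∀ x ∈ N, φ t x ∈ N)
    (hb : ∀ w K, IsCompact K → (∀ t, 0 ≤ t → φ t w ∈ K) → w ∈ N) {Q : Set X} (hQ : IsCompact Q)
    (hNQ : N ⊆ interior Q) : ∃ B, IsCompact B ∧ N ⊆ interior B ∧ B ⊆ Q ∧
      ∀ t ≤ 0, ∀ x ∈ B, φ t x ∈ B := by
  have hK : IsCompact (Q \ interior Q) := hQ.diff isOpen_interior
  obtain ⟨T, hT0, hT⟩ : ∃ T : ℝ, 0 ≤ T ∧ ∀ w ∈ Q \ interior Q, ∃ t ∈ Icc 0 T, φ t w ∉ Q := by
    refine hK.induction_on (p := fun S => ∃ T : ℝ, 0 ≤ T ∧ ∀ w ∈ S, ∃ t ∈ Icc 0 T, φ t w ∉ Q)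
      ⟨0, le_rfl, fun _ hw => hw.elim⟩ (fun S S' a ⟨T, b, c⟩ => ⟨T, b, fun w hw => c w (a hw)⟩)
      ?_ ?_
    · rintro S S' ⟨T, a, b⟩ ⟨T', a', b'⟩
      refine ⟨max T T', a.trans (le_max_left _ _), ?_⟩
      rintro w (hw | hw)
      · obtain ⟨t, c, d⟩ := b w hw
        exact ⟨t, ⟨c.1, c.2.trans (le_max_left _ _)⟩, d⟩
      · obtain ⟨t, c, d⟩ := b' w hw
        exact ⟨t, ⟨c.1, c.2.trans (le_max_right _ _)⟩, d⟩
    · intro w hw
      have : ¬ ∀ t, 0 ≤ t → φ t w ∈ Q := fun a => hw.2 (hNQ (hb w Q hQ a))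
      push Not at this
      obtain ⟨t, a, b⟩ := this
      exact ⟨φ t ⁻¹' Qᶜ, mem_nhdsWithin_of_mem_nhds
        ((hQ.isClosed.isOpen_compl.preimage (h.c1 t)).mem_nhds b), t, a,
        fun w' hw' => ⟨t, ⟨a, le_rfl⟩, hw'⟩⟩
  have cl : IsClosed {y | ∀ t ≤ 0, φ t y ∈ Q} := by
    rw [show {y | ∀ t ≤ 0, φ t y ∈ Q} = ⋂ t ≤ (0 : ℝ), φ t ⁻¹' Q by ext; simp]
    exact isClosed_biInter fun t _ => hQ.isClosed.preimage (h.c1 t)
  have sub : {y | ∀ t ≤ 0, φ t y ∈ Q} ⊆ Q := fun y hy => h.zero y ▸ hy 0 le_rfl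
  refine ⟨_, hQ.of_isClosed_subset cl sub, fun x hx => ?_, sub,
    fun t ht x hx s hs => h.add s t x ▸ hx _ (by linarith)⟩
  rw [mem_interior_iff_mem_nhds]
  have ev : ∀ᶠ y in 𝓝 x, ∀ t ∈ Icc (-T) 0, φ t y ∈ interior Q := by
    refine isCompact_Icc.eventually_forall_of_forall_eventually fun t _ => ?_
    have c : Continuous fun p : X × ℝ => φ p.2 p.1 := h.cont.comp continuous_swap
    exact c.continuousAt.eventually_mem (isOpen_interior.mem_nhds (hNQ (hN t x hx)))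
  filter_upwards [ev] with y hy t ht
  by_contra hn
  let S : Set ℝ := Iic 0 ∩ (fun s => φ s y) ⁻¹' (interior Q)ᶜ
  have S1 : IsClosed S := isClosed_Iic.inter (isOpen_interior.isClosed_compl.preimage (h.c2 y))
  have S2 : BddAbove S := ⟨0, fun s hs => hs.1⟩
  have S3 : S.Nonempty := ⟨t, ht, fun a => hn (interior_subset a)⟩
  have m := S1.csSup_mem S3 S2
  have lt : sSup S < -T := by
    by_contra a
    exact m.2 (hy _ ⟨not_lt.1 a, m.1⟩)
  have gt : ∀ s, sSup S < s → s ≤ 0 → φ s y ∈ Q := fun s a b => by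
    by_contra c
    exact absurd (le_csSup S2 ⟨b, fun d => c (interior_subset d)⟩) (not_le.2 a)
  have inQ : φ (sSup S) y ∈ Q := by
    refine hQ.isClosed.mem_of_tendsto (f := fun s => φ s y) (b := 𝓝[>] sSup S)
      ((h.c2 y).continuousAt.mono_left nhdsWithin_le_nhds) ?_
    filter_upwards [Ioo_mem_nhdsGT (show sSup S < 0 by linarith)] with s hs using
      gt s hs.1 hs.2.le
  obtain ⟨s, a, b⟩ := hT _ ⟨inQ, m.2⟩
  rw [← h.add] at b
  rcases a.1.eq_or_lt with c | c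
  · rw [← c, zero_add] at b; exact b inQ
  · exact b (gt _ (by linarith) (by linarith [a.2]))

/-- an exhaustion by compact sets which are moved by the flow -/
structure Exh (φ : ℝ → X → X) (N : Set X) (B : ℝ → Set X) : Prop where
  cpt : ∀ r, IsCompact (B r)
  mono : Monotone B
  mv : ∀ r t x, φ t x ∈ B (r + t) ↔ x ∈ B r
  mvi : ∀ r t x, φ t x ∈ interior (B (r + t)) ↔ x ∈ interior (B r)
  nb : ∀ r, N ⊆ interior (B r)
  cap : ∀ x, (∀ r, x ∈ B r) → x ∈ N
  cup : ∀ x, ∃ r, x ∈ interior (B r)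

theorem Att.exh [T2Space X] [LocallyCompactSpace X] (h : Att φ N) : ∃ B, Exh φ N B := by
  obtain ⟨Q, q1, q2⟩ := exists_compact_superset h.cpt
  obtain ⟨B, b1, b2, -, b4⟩ := exists_trap h.toFlo h.inv h.bdd q1 q2
  have e : ∀ r, interior (φ (-r) ⁻¹' B) = φ (-r) ⁻¹' interior B := fun r =>
    ((h.toFlo.hm (-r)).preimage_interior B).symm
  refine ⟨fun r => φ (-r) ⁻¹' B, fun r => (h.toFlo.hm (-r)).isCompact_preimage.2 b1,
    fun r s hrs x hx => ?_, fun r t x => ?_, fun r t x => ?_, fun r x hx => ?_, fun x hx => ?_,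
    fun x => ?_⟩
  · have := b4 (r - s) (by linarith) _ hx
    rwa [← h.add, show r - s + -r = -s by ring] at this
  · simp only [mem_preimage]
    rw [← h.add, show -(r + t) + t = -r by ring]
  · simp only [e, mem_preimage]
    rw [← h.add, show -(r + t) + t = -r by ring]
  · rw [e]; exact b2 (h.inv _ x hx)
  · exact h.bdd x B b1 fun t _ => by simpa using hx (-t)
  · obtain ⟨t, ht⟩ := h.near x _ isOpen_interior b2
    exact ⟨-t, by rw [e]; simpa using ht⟩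

variable {B : ℝ → Set X}

theorem Exh.small [T2Space X] (E : Exh φ N B) {U : Set X} (hU : IsOpen U) (hN : N ⊆ U) :
    ∃ r, B r ⊆ U := by
  have := (E.cpt 0).elim_directed_family_closed (fun r : ℝ => B r \ U)
    (fun r => (E.cpt r).isClosed.sdiff hU) (by
      rw [eq_empty_iff_forall_notMem]
      rintro x ⟨-, hx⟩
      rw [mem_iInter] at hx
      exact (hx 0).2 (hN (E.cap x fun r => (hx r).1)))
    (fun a b => ⟨min a b, diff_subset_diff_left (E.mono (min_le_left _ _)),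
      diff_subset_diff_left (E.mono (min_le_right _ _))⟩)
  obtain ⟨r, hr⟩ := this
  refine ⟨min r 0, fun x hx => ?_⟩
  by_contra a
  exact (eq_empty_iff_forall_notMem.1 hr) x
    ⟨E.mono (min_le_right _ _) hx, E.mono (min_le_left _ _) hx, a⟩

theorem Exh.out (E : Exh φ N B) {x : X} (hx : x ∉ N) : ∃ r, x ∉ B r := by
  by_contra a
  push Not at a
  exact hx (E.cap x a)

/-- the last time at which an orbit is in `B r` -/
theorem Exh.last [T2Space X] (h : Flo φ) (E : Exh φ N B) {x : X} (hx : x ∉ N) (r : ℝ) :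
    ∃ σ, (∀ t, φ t x ∈ B r ↔ t ≤ σ) ∧ φ σ x ∉ interior (B r) := by
  obtain ⟨a, ha⟩ := E.out hx
  obtain ⟨b, hb⟩ := E.cup x
  let S : Set ℝ := (fun t => φ t x) ⁻¹' B r
  have S1 : IsClosed S := (E.cpt r).isClosed.preimage (h.c2 x)
  have key : ∀ t, t ∈ S ↔ x ∈ B (r - t) := fun t => by
    rw [← E.mv (r - t) t x, sub_add_cancel]; rfl
  have S2 : BddAbove S := ⟨r - a, fun t ht => by
    by_contra c
    exact ha (E.mono (by linarith [not_le.1 c]) ((key t).1 ht))⟩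
  have S3 : S.Nonempty := ⟨r - b, (key _).2 (by simpa using interior_subset hb)⟩
  have m := S1.csSup_mem S3 S2
  refine ⟨sSup S, fun t => ⟨fun ht => le_csSup S2 ht, fun ht => (key t).2
    (E.mono (by linarith) ((key _).1 m))⟩, fun c => ?_⟩
  have : ∀ᶠ t in 𝓝[>] sSup S, t ∈ S :=
    mem_nhdsWithin_of_mem_nhds ((h.c2 x).continuousAt.eventually_mem
      (mem_interior_iff_mem_nhds.1 c))
  obtain ⟨t, c1, c2⟩ := (this.and self_mem_nhdsWithin).exists
  exact absurd (le_csSup S2 c1) (not_le.2 c2)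

theorem Exh.inj [T2Space X] (h : Flo φ) (E : Exh φ N B) {x : X} (hx : x ∉ N) :
    Function.Injective fun t => φ t x := by
  obtain ⟨σ, a, -⟩ := E.last h hx 0
  have key : ∀ s t, φ s x = φ t x → s ≤ t := fun s t e => by
    have := (a σ).2 le_rfl
    rw [show σ = (σ - t) + t by ring, h.add, ← e, ← h.add] at this
    linarith [(a _).1 this]
  exact fun s t e => le_antisymm (key s t e) (key t s e.symm)

/-- the orbit relation off `N` -/
def orb (h : Flo φ) (N : Set X) : Setoid ↥(Nᶜ) where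
  r x y := ∃ t, φ t x = y
  iseqv := ⟨fun x => ⟨0, h.zero x⟩, fun ⟨t, e⟩ => ⟨-t, by rw [← e, h.neg]⟩,
    fun ⟨t, e⟩ ⟨s, e'⟩ => ⟨s + t, by rw [h.add, e, e']⟩⟩

theorem Exh.t2 [T2Space X] (h : Flo φ) (hN : ∀ t, ∀ x ∈ N, φ t x ∈ N) (E : Exh φ N B) :
    T2Space (Quotient (orb h N)) := by
  have hc : ∀ t x, x ∉ N → φ t x ∉ N := fun t x hx a => hx (h.neg t x ▸ hN (-t) _ a)
  have op : IsOpenQuotientMap (Quotient.mk (orb h N)) := by
    refine ⟨Quotient.mk_surjective, continuous_quotient_mk', fun U hU => ?_⟩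
    rw [← isQuotientMap_quotient_mk'.isOpen_preimage]
    have : (@Quotient.mk' _ (orb h N)) ⁻¹' (Quotient.mk (orb h N) '' U) =
        ⋃ t : ℝ, (fun x : ↥(Nᶜ) => (⟨φ t x, hc t x x.2⟩ : ↥(Nᶜ))) ⁻¹' U := by
      ext x
      simp only [mem_preimage, mem_image, mem_iUnion]
      constructor
      · rintro ⟨y, a, b⟩
        obtain ⟨t, e⟩ := Quotient.exact b.symm
        exact ⟨t, by rw [show (⟨φ t x, hc t x x.2⟩ : ↥(Nᶜ)) = y from Subtype.ext e]; exact a⟩
      · rintro ⟨t, a⟩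
        exact ⟨_, a, (Quotient.sound (s := orb h N) (a := x) ⟨t, rfl⟩).symm⟩
    rw [this]
    exact isOpen_iUnion fun t => hU.preimage
      (((h.c1 t).comp continuous_subtype_val).subtype_mk _)
  rw [t2Space_iff_of_isOpenQuotientMap op, ← isOpen_compl_iff, isOpen_iff_mem_nhds]
  rintro ⟨x, y⟩ hxy
  obtain ⟨a, ha⟩ := E.out x.2
  obtain ⟨a', ha'⟩ := E.out y.2
  obtain ⟨b, hb⟩ := E.cup x
  obtain ⟨b', hb'⟩ := E.cup y
  let c : ℝ := max b b' - min a a'
  have cl : IsClosed {q : ↥(Nᶜ) × ↥(Nᶜ) | ∃ t ∈ Icc (-c) c, φ t q.1 = q.2} := by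
    have : CompactSpace (Icc (-c) c) := isCompact_iff_compactSpace.1 isCompact_Icc
    have := isClosedMap_snd_of_compactSpace (X := Icc (-c) c) (Y := ↥(Nᶜ) × ↥(Nᶜ))
      {p | φ p.1 p.2.1 = p.2.2} (isClosed_eq (h.cont.comp (f := fun p : Icc (-c) c ×
        ↥(Nᶜ) × ↥(Nᶜ) => ((p.1 : ℝ), (p.2.1 : X))) (by fun_prop)) (by fun_prop))
    have e : {q : ↥(Nᶜ) × ↥(Nᶜ) | ∃ t ∈ Icc (-c) c, φ t q.1 = q.2} = Prod.snd ''
        {p : Icc (-c) c × ↥(Nᶜ) × ↥(Nᶜ) | φ p.1 p.2.1 = p.2.2} := by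
      ext q
      exact ⟨fun ⟨t, a, b⟩ => ⟨(⟨t, a⟩, q), b, rfl⟩, fun ⟨p, a, b⟩ => ⟨p.1, p.1.2, b ▸ a⟩⟩
    rw [e]
    exact this
  have oU : IsOpen (interior (B (max b b')) \ B (min a a')) :=
    isOpen_interior.sdiff (E.cpt _).isClosed
  have n1 : ∀ᶠ q : ↥(Nᶜ) × ↥(Nᶜ) in 𝓝 (x, y), (q.1 : X) ∈ interior (B (max b b')) \ B (min a a') :=
    (continuous_subtype_val.comp continuous_fst).continuousAt.eventually_mem (oU.mem_nhds
      ⟨interior_mono (E.mono (le_max_left _ _)) hb, fun d => ha (E.mono (min_le_left _ _) d)⟩)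
  have n2 : ∀ᶠ q : ↥(Nᶜ) × ↥(Nᶜ) in 𝓝 (x, y), (q.2 : X) ∈ interior (B (max b b')) \ B (min a a') :=
    (continuous_subtype_val.comp continuous_snd).continuousAt.eventually_mem (oU.mem_nhds
      ⟨interior_mono (E.mono (le_max_right _ _)) hb', fun d => ha' (E.mono (min_le_right _ _) d)⟩)
  have n3 := cl.isOpen_compl.mem_nhds (x := (x, y)) fun ⟨t, _, e⟩ =>
    hxy (Quotient.sound (s := orb h N) ⟨t, e⟩)
  filter_upwards [n1, n2, n3] with q q1 q2 q3 e
  obtain ⟨t, e⟩ := Quotient.exact e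
  refine q3 ⟨t, ⟨?_, ?_⟩, e⟩
  · by_contra d
    have := (E.mv _ t _).2 (interior_subset q1.1)
    rw [e] at this
    exact q2.2 (E.mono (by simp only [c] at d; linarith [not_le.1 d]) this)
  · by_contra d
    have := (E.mv _ (-t) _).2 (interior_subset q2.1)
    rw [← e, h.neg] at this
    exact q1.2 (E.mono (by simp only [c] at d; linarith [not_le.1 d]) this)

end Vale.Agent.P275LM
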