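import Vale.Agent.P275LM.Fam
import Vale.Agent.P275KR.Frm

/-! # P275: the graded object of a maximal filtration is stable -/

set_option linter.all false

open scoped Matrix.Norms.Operator Topology ContDiff ComplexOrder
open Filter Set Matrix Metric

noncomputable section

namespace Vale.Agent.P275LM

open Vale.Agent.P281Z.Hm Vale.Agent.P275GC Vale.Agent.P275GC.At Vale.Agent.P275KR
open Vale.Agent.P275NA (Fm Cy Mn Mr FrAt Sub degS cvS)
open Vale.Agent.P275MO (Good Stab InvC off Std Hom IsoBy FamOn)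
open Vale.Agent.P275MB (off_open off_ev off_tr dmul)

variable {C : Type} [TopologicalSpace C] [T2Space C] [ConnectedSpace C] {A : At C} {n m : ℕ}
  {l : Cy A ℂ} {z : P275MO.Dat C A.N n} {i j : Fin A.N} {w s : ℂ} {P : Fm A (ℕ → Mn n)}
  {u : Mn n} {d : Fin n → ℕ} {g g' : Cy A (Mn n)} {W : Fm A (ℕ → Sp n)} {k r : ℕ}
  {H H' : Fm A (Sp n)}

/-- subbundles have holomorphic projectors on the discs -/
def PJ (A : At C) (g : Cy A (Mn n)) : Prop := ∀ (k : ℕ) (S : Fm A (Sp n)), Sub A g k S →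
  ∃ π : Fm A (Mn n), ∀ i, ∀ w ∈ ball (0 : ℂ) A.R, AnalyticAt ℂ (π i) w ∧
    (∀ v, π i w *ᵥ v ∈ S i w) ∧ ∀ v ∈ S i w, π i w *ᵥ v = v

theorem pj_res (hg : A.Cc g) {ρ : ℝ} (h1 : 1 < ρ) (h2 : ρ < A.R) : PJ (A.res ρ h1 h2.le) g := by
  intro k S c
  choose π hπ using fun i => exists_prj h2 ((P275MB.sub_xt hg c).fr i)
  refine ⟨π, fun i w hw => ?_⟩
  have := hπ i w hw
  rwa [xt_self (A := A) (T := P275MB.sT A g) (i := i) c.tr hw] at this

theorem pj_mono {ρ ρ' : ℝ} {h1 : 1 < ρ} {h2 : ρ ≤ A.R} (hg : (A.res ρ h1 h2).Cc g) (h1' : 1 < ρ')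
    (h3 : ρ' < ρ) : PJ (A.res ρ' h1' (h3.le.trans h2)) g :=
  have := pj_res hg h1' h3
  (P275MB.rr h1' h3.le fun E => PJ (E.at h1') g).1 this

/-- `H` lies between two consecutive terms of the filtration -/
def Sd (A : At C) (W : Fm A (ℕ → Sp n)) (k : ℕ) (H : Fm A (Sp n)) : Prop :=
  ∀ i, ∀ w ∈ ball (0 : ℂ) A.R, W i w (k + 1) ≤ H i w ∧ H i w ≤ W i w k

/-- two cocycles with the same graded parts -/
structure Nr (A : At C) (m : ℕ) (P : Fm A (ℕ → Mn n)) (W : Fm A (ℕ → Sp n))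
    (g g' : Cy A (Mn n)) : Prop where
  cc : A.Cc g
  cc' : A.Cc g'
  sp : ∀ i, ∀ w ∈ ball (0 : ℂ) A.R, Spt m (P i w) (W i w)
  lg : ∀ i j, ∀ w ∈ A.O i j, Lv 0 (P i w) (g i j w) (P j (A.tr i j w))
  df : ∀ i j, ∀ w ∈ A.O i j, Lv 1 (P i w) (g' i j w - g i j w) (P j (A.tr i j w))

theorem Nr.symm (N : Nr A m P W g g') : Nr A m P W g' g :=
  ⟨N.cc', N.cc, N.sp, fun i j w h => by
    have := ((N.df i j w h).mono zero_le_one).add (N.lg i j w h)
    rwa [sub_add_cancel] at this, fun i j w h => by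
    have := (N.df i j w h).smul (-1)
    rwa [neg_one_smul, neg_sub] at this⟩

theorem Nr.sub (N : Nr A m P W g g') (S : Sd A W k H) (c : Sub A g r H) : Sub A g' r H := by
  have a : ∀ i j, ∀ w ∈ A.O i j, ∀ v ∈ H j (A.tr i j w), g' i j w *ᵥ v ∈ H i w := by
    intro i j w h v hv
    rw [← sub_add_cancel (g' i j w) (g i j w), add_mulVec]
    exact add_mem ((S i w h.1).1 ((N.df i j w h).mem (N.sp i w h.1) (N.sp j _ (tr_ball h))
      (by push_cast; rfl) ((S j _ (tr_ball h)).2 hv))) (c.tr i j w h ▸ ⟨v, hv, rfl⟩)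
  refine ⟨c.fr, fun i j w h => le_antisymm (fun v hv => ⟨g' j i (A.tr i j w) *ᵥ v,
    a j i _ (tr_mem h) v (by rwa [tr_inv h]), ?_⟩) ?_⟩
  · rintro _ ⟨v, hv, rfl⟩
    exact a i j w h v hv
  · rw [mulVecLin_apply, mulVec_mulVec, N.cc'.inv h, one_mulVec]

theorem Nr.deg (N : Nr A m P W g g') (S : Sd A W k H) (c : Sub A g r H) :
    degS A g r H = degS A g' r H := by
  let Θ : Fm A (Mn n) := fun i w => ∑ j, (A.φ j i w : ℂ) • (g' i j w * g j i (A.tr i j w))
  have lv : ∀ i, ∀ w ∈ ball (0 : ℂ) A.R, Lv 1 (P i w) (Θ i w - 1) (P i w) := fun i w h => by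
    have : Θ i w - 1 = ∑ j, (A.φ j i w : ℂ) • (g' i j w * g j i (A.tr i j w) - 1) := by
      simp only [smul_sub, Finset.sum_sub_distrib, ← Finset.sum_smul, Θ]
      rw [← Complex.ofReal_sum, sum_φ, Complex.ofReal_one, one_smul]
    rw [this]
    refine Lv.sum _ fun j => ?_
    by_cases o : w ∈ A.O i j
    · have b := N.lg j i _ (tr_mem o)
      rw [tr_inv o] at b
      have := (N.df i j w o).mul b (N.sp j _ (tr_ball o)).toPs
      rw [sub_mul, N.cc.inv o, add_zero] at this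
      exact this.smul _
    · rw [φ_not h o, Complex.ofReal_zero, zero_smul]
      exact lv_zero
  refine degS_eq N.cc N.cc' (Θ := Θ) (fun i => ContDiffOn.sum fun j _ => ?_) (fun i j w h => ?_)
    (fun i w h => (lv i w h).nilp (N.sp i w h).toPs) c fun i w h v hv => ?_
  · exact (cd_φ_smul (A := A) (i := i) (j := j) (m := ⊤)
      (u := fun w => g' i j w * g j i (A.tr i j w)) fun w h => cd_an (an_mul (N.cc'.an h)
        ((N.cc.an (tr_mem h)).comp (an_tr h)))).congr fun z _ => (rsmul _ _).symm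
  · simp only [Θ, Finset.mul_sum, Finset.sum_mul]
    refine Finset.sum_congr rfl fun a _ => ?_
    rw [← fn_φ a i j w h]
    by_cases h' : w ∈ A.O i a
    · rw [tr_tr h, N.cc.mul a i j _ (tr_mem h') (tr_O h' h), tr_inv h', N.cc'.mul i j a w h h']
      simp only [Matrix.mul_smul, Matrix.smul_mul, Matrix.mul_assoc]
    · rw [φ_not h.1 h', Complex.ofReal_zero, zero_smul, zero_smul, Matrix.mul_zero,
        Matrix.zero_mul]
  · rw [← sub_add_cancel (Θ i w) 1, add_mulVec, one_mulVec]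
    exact add_mem ((S i w h).1 ((lv i w h).mem (N.sp i w h) (N.sp i w h) (by push_cast; rfl)
      ((S i w h).2 hv))) hv

theorem Grd.nr (G : Grd A z m P u d) (g : Good A l z)
    (sp : ∀ i, ∀ w ∈ ball (0 : ℂ) A.R, Spt m (P i w) (W i w)) (s : ℂ) :
    Nr A m P W z.g (fam A z m P u d s).g :=
  ⟨g.cc, G.cc g s, sp, G.lg, fun i j w h =>
    (G.lg i j w h).cj_sub (G.ps i w h.1) (G.ps j _ (tr_ball h))⟩

/-- the connection and the graded Higgs field agree modulo the filtration -/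
theorem Grd.dif (G : Grd A z m P u d) (sp : ∀ i, ∀ w ∈ ball (0 : ℂ) A.R, Spt m (P i w) (W i w))
    (h : w ∈ ball (0 : ℂ) A.R) {t : ℂ → Fin n → ℂ} (ht : AnalyticAt ℂ t w)
    (e : ∀ᶠ y in 𝓝 w, t y ∈ W i y k) : (z.lam • deriv t w + z.a i w *ᵥ t w) -
      ((fam A z m P u d 0).lam • deriv t w + (fam A z m P u d 0).a i w *ᵥ t w) ∈ W i w k := by
  have p := G.ps i w h
  have e1 : ∑ q ∈ Finset.range m, Yq z P i w q = z.a i w := by
    have a : ∑ q ∈ Finset.range m, deriv (fun y => P i y q) w = 0 := by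
      exact (deriv_fun_sum fun q _ => (G.an i w h q).differentiableAt).symm.trans
        ((EventuallyEq.deriv_eq (f := fun _ => 1) ((ev_ball h).mono fun y b =>
          (G.ps i y b).sum)).trans (P275MB.dconst _ _))
    simp only [Yq, Finset.sum_add_distrib, ← Finset.smul_sum, ← Finset.mul_sum]
    rw [a, p.sum, smul_zero, zero_add, mul_one]
  have e2 : ∀ q < k, Yq z P i w q *ᵥ t w + z.lam • P i w q *ᵥ deriv t w = 0 := fun q c => by
    have a : (fun y => P i y q *ᵥ t y) =ᶠ[𝓝 w] fun _ => 0 := by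
      filter_upwards [e, ev_ball h] with y a b using ((sp i y b).mem k _).1 a q c
    have b := a.deriv_eq
    rw [P275MB.deriv_mulVec (G.an i w h q) ht, deriv_const] at b
    rw [Yq, add_mulVec, ← mulVec_mulVec, show P i w q *ᵥ t w = 0 from a.self_of_nhds, mulVec_zero,
      add_zero, smul_mulVec, ← smul_add, b, smul_zero]
  refine ((sp i w h).mem k _).2 fun r c => ?_
  simp only [fam, zero_mul, zero_smul, zero_add]
  rw [← e1, ← one_mulVec (deriv t w), ← p.sum, mulVec_sub, mulVec_mulVec, p.mul_rs, sum_mulVec,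
    sum_mulVec, sum_mulVec, Finset.smul_sum, ← Finset.sum_add_distrib, mulVec_sum,
    ← Finset.sum_sub_distrib]
  refine Finset.sum_eq_zero fun q _ => ?_
  rcases le_or_gt q r with a | a
  · rw [add_comm, e2 q (by omega), zero_pow (by omega), zero_smul, zero_mulVec, mulVec_zero,
      sub_zero]
  · rw [show r + 1 - q = 0 by omega, pow_zero, one_smul, mulVec_add, mulVec_smul, mulVec_mulVec,
      p.ne r q a.ne, zero_mulVec, smul_zero, zero_add, mulVec_mulVec, sub_self]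

theorem Grd.tc (G : Grd A z m P u d) (sp : ∀ i, ∀ w ∈ ball (0 : ℂ) A.R, Spt m (P i w) (W i w))
    (e : ∀ i, ∀ w ∈ ball (0 : ℂ) A.R, H i w ≤ W i w k ∧ W i w k ≤ H' i w) :
    TC z H H' ↔ TC (fam A z m P u d 0) H H' := by
  refine forall₃_congr fun i w h => forall₃_congr fun t ht c => ?_
  have := (e i w h.1).2 (G.dif sp h.1 ht (by
    filter_upwards [c, ev_ball h.1] with y a b using (e i y b).1 a))
  exact ⟨fun a => by simpa using sub_mem a this, fun a => by simpa using add_mem this a⟩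

theorem an_nest {π : ℕ → ℂ → Mn n} (h : ∀ k, AnalyticAt ℂ (π k) w) (k : ℕ) :
    AnalyticAt ℂ (fun y => nest (fun q => π q y) k) w := by
  induction k with
  | zero => exact analyticAt_const
  | succ k ih => exact an_mul (h _) ih

theorem exists_grd (g : Good A l z) (pj : PJ A z.g) {N : ℕ} {F : ℤ → Sb g.cc}
    (hF : Tv (fun V W => TC z V.S W.S) N F) : ∃ P u d, Grd A z (2 * N) P u d ∧
      u.BlockTriangular id ∧ ∀ i, ∀ w ∈ ball (0 : ℂ) A.R,
        Spt (2 * N) (P i w) fun k => (F (k - N)).S i w := by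
  choose π hπ using fun k : ℕ => pj _ _ (F (k - N)).sub
  let P : Fm A (ℕ → Mn n) := fun i w => grd fun k => π k i w
  have sp : ∀ i, ∀ w ∈ ball (0 : ℂ) A.R, Spt (2 * N) (P i w) fun k => (F (k - N)).S i w :=
    fun i w h => spt_grd (fun a b c => Sb.le_def.1 (hF.anti (by omega)) i w h)
      (by rw [hF.lo _ (by omega), Sb.top_S h]) (by rw [hF.hi _ (by omega), Sb.bot_S h])
      (fun k => (hπ k i w h).2.1) fun k => (hπ k i w h).2.2
  have an : ∀ i, ∀ w ∈ ball (0 : ℂ) A.R, ∀ p, AnalyticAt ℂ (fun y => P i y p) w := fun i w h p =>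
    (an_nest (fun k => (hπ k i w h).1) p).sub (an_nest (fun k => (hπ k i w h).1) (p + 1))
  have lg : ∀ i j, ∀ w ∈ A.O i j, Lv 0 (P i w) (z.g i j w) (P j (A.tr i j w)) := fun i j w h =>
    (sp i w h.1).lv (sp j _ (tr_ball h)) 0 fun q v hv => ((F _).mem_tr h).2 hv
  obtain ⟨i0, h0, -⟩ := A.cov z.x
  obtain ⟨u, d, a1, a2, a3, a4, a5⟩ := (sp i0 _ (map_src h0)).toPs.bruhat (g.fr i0 h0)
  refine ⟨P, u, d, ⟨fun i w h => (sp i w h).toPs, an, lg, fun i w h p q c => ?_, a2, a3,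
    fun i h => ?_⟩, a1, sp⟩
  · refine toLin'.injective (LinearMap.ext fun v => ?_)
    have := hF.tr (q - N) i w h (fun y => P i y q *ᵥ v) (an_mulVec (an i w h.1 q) analyticAt_const)
      ((ev_ball h.1).mono fun y b => (sp i y b).rg le_rfl v)
    rw [P275MB.deriv_mulVec (an i w h.1 q) analyticAt_const, deriv_const, mulVec_zero, add_zero,
      show (q : ℤ) - N - 1 = (q - 1 : ℕ) - N by omega] at this
    rw [toLin'_apply, map_zero, ← mulVec_mulVec, Yq, add_mulVec, smul_mulVec, ← mulVec_mulVec]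
    exact ((sp i w h.1).mem (q - 1) _).1 this p (by omega)
  · have o := mem_O h h0
    have p := (sp i0 _ (map_src h0)).toPs
    have b1 := lg i i0 _ o
    have b2 := lg i0 i _ (tr_mem o)
    rw [tr_inv o] at b2
    rw [g.frc i i0 h h0, mul_assoc, Matrix.mul_inv_rev, Matrix.inv_eq_left_inv (g.cc.inv' o)]
    rw [tr_e h] at b1 b2 ⊢
    exact ⟨b1.mul a4 p, a5.mul b2 p⟩

/-- the same subbundle for another cocycle -/
def mv {hg : A.Cc g} (hg' : A.Cc g') (V : Sb hg) (h : Sub A g' V.r V.S) : Sb hg' :=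
  ⟨V.r, V.S, h, V.out⟩

/-- **(L)** the degeneration with a stable limit -/
theorem lim0 {e : ℤ} (S : Std A l n e) (g : Good A l z) (st : Stab A l z) (pj : PJ A z.g) :
    ∃ m P u d, Grd A z m P u d ∧ u.BlockTriangular id ∧ Stab A l (fam A z m P u d 0) := by
  obtain ⟨N, F, hF, hL⟩ := exists_fil S (frm A) g st
  obtain ⟨P, u, d, G, hu, sp⟩ := exists_grd g pj hF
  refine ⟨_, P, u, d, G, hu, ?_⟩
  have g0 := G.good g 0
  have R := G.nr g sp 0
  have D := dat_tc S (frm A) g0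
  have sd : ∀ (p : ℤ) (H : Fm A (Sp n)), (∀ i, ∀ w ∈ ball (0 : ℂ) A.R, (F p).S i w ≤ H i w ∧
      H i w ≤ (F (p - 1)).S i w) → Sd A (fun i w k => (F (k - N)).S i w) (p - 1 + N).toNat H := by
    intro p H e i w h
    refine ⟨(Sb.le_def.1 (hF.anti (by omega)) i w h).trans (e i w h).1, ?_⟩
    rcases le_or_gt 0 (p - 1 + N) with a | a
    · exact (e i w h).2.trans (Sb.le_def.1 (hF.anti (by omega)) i w h)
    · beta_reduce
      rw [hF.lo _ (by omega), Sb.top_S h]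
      exact le_top
  have tc : ∀ (p : ℤ) (H H' : Fm A (Sp n)), (∀ i, ∀ w ∈ ball (0 : ℂ) A.R, (F p).S i w ≤ H i w ∧
      H i w ≤ (F (p - 1)).S i w) → (∀ i, ∀ w ∈ ball (0 : ℂ) A.R, (F (p - 1)).S i w ≤ H' i w) →
      (TC z H H' ↔ TC (fam A z (2 * N) P u d 0) H H') := fun p H H' e e' =>
    G.tc sp (k := (p - 1 + N).toNat) fun i w h => ⟨(sd p H e i w h).2,
      (Sb.le_def.1 (hF.anti (by omega)) i w h).trans (e' i w h)⟩
  have s0 : ∀ p i, ∀ w ∈ ball (0 : ℂ) A.R, (F p).S i w ≤ (F p).S i w ∧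
      (F p).S i w ≤ (F (p - 1)).S i w := fun p i w h =>
    ⟨le_rfl, Sb.le_def.1 (hF.anti (by omega)) i w h⟩
  let F0 : ℤ → Sb g0.cc := fun p => mv g0.cc (F p) (R.sub (sd p _ (s0 p)) (F p).sub)
  have t0 : Tv (fun V W => TC (fam A z (2 * N) P u d 0) V.S W.S) N F0 :=
    ⟨fun a b c => Sb.le_def.2 (Sb.le_def.1 (hF.anti c)),
      fun p c => Sb.eq_top ((congrArg Sb.r (hF.lo p c)).trans Sb.top_r),
      fun p c => Sb.eq_bot ((congrArg Sb.r (hF.hi p c)).trans Sb.bot_r),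
      fun p => (tc p _ _ (s0 p) fun _ _ _ => le_rfl).1 (hF.tr p)⟩
  refine (stab_iff_dl S (frm A) g0).2 fun V => LM.inv D t0 (lm_of D (rk_tc S g0.cc) t0 ?_)
  intro H0 a b c
  have s1 : ∀ p i, ∀ w ∈ ball (0 : ℂ) A.R, (F p).S i w ≤ (H0 p).S i w ∧
      (H0 p).S i w ≤ (F (p - 1)).S i w := fun p i w h =>
    ⟨Sb.le_def.1 (a p) i w h, Sb.le_def.1 (b p) i w h⟩
  let H : ℤ → Sb g.cc := fun p => mv g.cc (H0 p) (R.symm.sub (sd p _ (s1 p)) (H0 p).sub)
  have := (hL H (fun p => Sb.le_def.2 (Sb.le_def.1 (a p))) (fun p => Sb.le_def.2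
    (Sb.le_def.1 (b p))) fun p => (tc p _ _ (s1 p) (Sb.le_def.1 (a (p - 1)))).2 (c p)).1
  have e1 : nu (dl e) H0 = nu (dl e) H := finsum_congr fun p =>
    congrArg (fun x : ℝ => n * ⌊x⌋ - e * (H0 p).r) (R.symm.deg (sd p _ (s1 p)) (H0 p).sub)
  have e2 : nu (dl e) F = nu (dl e) F0 := finsum_congr fun p =>
    congrArg (fun x : ℝ => n * ⌊x⌋ - e * (F p).r) (R.deg (sd p _ (s0 p)) (F p).sub)
  rwa [e1, ← e2]

end Vale.Agent.P275LM
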