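import Vale.Agent.P275LM.Flow
import Vale.Agent.P275S.Arc

/-! # P275: the cohomology of a space with a compact attractor (abstract part) -/

set_option linter.all false

namespace Vale.Agent.P275LM

open Set Topology Filter Vale.Agent.P275SO P275S.Ab

section VB

variable {k : Type*} [Ring k] {X : Type*} [TopologicalSpace X] {M : ℤ → Type*}
  [∀ i, AddCommGroup (M i)] [∀ i, Module k (M i)] {d : ∀ i j, M i →ₗ[k] M j}
  {G : ∀ i, X → Submodule k (M i)} {p : ∀ i, M i →ₗ[k] M i} {A C : Set X} {j : ℤ}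
  {Y : Type*} [TopologicalSpace Y] {g : X → Y}

theorem bd_sub (h : Dat d G p) (hC : C ⊆ A) (i : ℤ) {s : M j} (hs : s ∈ N (G j) (A ∩ C)) :
    Bd d G A C i (p j s) :=
  ⟨0, zero_mem _, by
    rw [map_zero, sub_zero]
    exact h.pN (N_anti (subset_inter hC Subset.rfl) hs)⟩

theorem van_sub (h : Dat d G p) (hC : C ⊆ A) (j : ℤ) : Van d G p A C j :=
  fun i _ _ _ _ hs _ => bd_sub h hC i hs

theorem vb_step [T2Space X] [T2Space Y] (h : Dat d G p) (hA : IsClosed A) (hC : IsCompact C)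
    (hg : ContinuousOn g C) (hv : ∀ B, IsClosed B → Van d G p A (C ∩ g ⁻¹' B) (j - 1))
    (hx : ∀ y, Van d G p A (C ∩ g ⁻¹' {y}) j) {B₀ : Set Y} (h₀ : IsClosed B₀) :
    Van d G p A (C ∩ g ⁻¹' B₀) j := by
  intro i l hij hjl s hs hd
  obtain rfl : i = j - 1 := by omega
  have cl : ∀ {T : Set Y}, IsClosed T → IsCompact (C ∩ g ⁻¹' T) := fun hT =>
    hC.of_isClosed_subset (hg.preimage_isClosed_of_isClosed hC.isClosed hT) inter_subset_left
  have sub : ∀ B : Set Y, C ∩ g ⁻¹' (B ∩ B₀) ⊆ C ∩ g ⁻¹' B₀ := fun B x hx => ⟨hx.1, hx.2.2⟩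
  have : ∃ B, IsClosed B ∧ g '' C ∩ B₀ ⊆ B ∧
      Bd d G A (C ∩ g ⁻¹' (B ∩ B₀)) (j - 1) (p j s) := by
    refine ((hC.image_of_continuousOn hg).inter_right h₀).induction_on (p := fun T => ∃ B,
      IsClosed B ∧ T ⊆ B ∧ Bd d G A (C ∩ g ⁻¹' (B ∩ B₀)) (j - 1) (p j s))
      ⟨∅, isClosed_empty, Subset.rfl, by
        rw [empty_inter, preimage_empty, inter_empty]; exact Bd.empty _⟩
      (fun T T' a ⟨B, b1, b2, b3⟩ => ⟨B, b1, a.trans b2, b3⟩) ?_ ?_
    · rintro T T' ⟨B, b1, b2, b3⟩ ⟨B', c1, c2, c3⟩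
      refine ⟨B ∪ B', b1.union c1, union_subset_union b2 c2, ?_⟩
      have a := union_subset (sub B) (sub B')
      rw [union_inter_distrib_right, preimage_union, inter_union_distrib_left]
      refine h.mv hA (cl (b1.inter h₀)) (cl (c1.inter h₀)) hij hjl ?_
        (N_anti (inter_subset_inter_right _ a) hs) (N_anti a hd) b3 c3
      rw [← inter_inter_distrib_left, ← preimage_inter]
      exact hv _ ((b1.inter h₀).inter (c1.inter h₀))
    · intro y hy
      have b : C ∩ g ⁻¹' {y} ⊆ C ∩ g ⁻¹' B₀ := fun x hx =>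
        ⟨hx.1, show g x ∈ B₀ from (show g x = y from hx.2) ▸ hy.2⟩
      obtain ⟨U, u1, u2, u3⟩ := h.nhds hA (hx y _ l hij hjl s
        (N_anti (inter_subset_inter_right _ b) hs) (N_anti b hd))
      obtain ⟨W, V, w1, w2, w3, w4, w5⟩ := ((hC.diff u1).image_of_continuousOn
        (hg.mono diff_subset)).separation_of_notMem (x := y) (by
          rintro ⟨x, hx, e⟩
          exact hx.2 (u2 ⟨hx.1, e⟩))
      refine ⟨V, mem_nhdsWithin_of_mem_nhds (w2.mem_nhds w4), Wᶜ, w1.isClosed_compl,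
        w5.subset_compl_left, u3.mono fun x hx => ?_⟩
      by_contra a
      exact hx.2.1 (w3 ⟨x, ⟨hx.1, a⟩, rfl⟩)
  obtain ⟨B, -, b2, b3⟩ := this
  exact b3.mono fun x hx => ⟨hx.1, b2 ⟨⟨x, hx.1, rfl⟩, hx.2⟩, hx.2⟩

/-- **Vietoris-Begle**: vanishing on the fibres gives vanishing on a compact set -/
theorem vb [T2Space X] [T2Space Y] (h : Dat d G p) (hA : IsClosed A) {a n : ℤ}
    (ha : ∀ j < a, ∀ s : M j, s = 0) (hC : IsCompact C) (hg : ContinuousOn g C)
    (hx : ∀ j ≤ n, ∀ y, Van d G p A (C ∩ g ⁻¹' {y}) j) : ∀ j ≤ n, Van d G p A C j := by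
  have z : ∀ j < a, ∀ B, Van d G p A B j := fun j hj B i l _ _ s _ _ =>
    ⟨0, zero_mem _, by rw [ha j hj (_ - _)]; exact zero_mem _⟩
  have : ∀ m : ℕ, a - 1 + m ≤ n → ∀ B, IsClosed B → Van d G p A (C ∩ g ⁻¹' B) (a - 1 + m) := by
    intro m
    induction m with
    | zero => exact fun _ B _ => z _ (by simp) _
    | succ m ih =>
      intro hm B hB
      push_cast at hm ⊢
      refine vb_step h hA hC hg (fun B' b => ?_) (hx _ hm) hB
      rw [show a - 1 + (m + 1) - 1 = a - 1 + m by ring]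
      exact ih (by omega) B' b
  intro j hj
  rcases lt_or_ge j a with b | b
  · exact z j b C
  · obtain ⟨m, rfl⟩ : ∃ m : ℕ, j = a - 1 + m := ⟨(j - (a - 1)).toNat, by omega⟩
    simpa using this m hj univ isClosed_univ

/-- excision -/
theorem van_exc (h : Dat d G p) (hA : IsClosed A) (hC : IsCompact C) {C' : Set X}
    (hC' : IsCompact C') (hs : C' ⊆ A) (hv : Van d G p A C j) : Van d G p A (C ∪ C') j :=
  fun i l hij hjl s a b => h.mv hA hC hC' hij hjl (van_sub h (inter_subset_right.trans hs) i) a b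
    (hv i l hij hjl s (N_anti (inter_subset_inter_right _ subset_union_left) a)
      (N_anti subset_union_left b))
    (bd_sub h hs i (N_anti (inter_subset_inter_right _ subset_union_right) a))

end VB

variable {k : Type*} [Field k] {X : Type*} [TopologicalSpace X] [T2Space X] {M : ℤ → Type*}
  [∀ i, AddCommGroup (M i)] [∀ i, Module k (M i)] {d : ∀ i j, M i →ₗ[k] M j}
  {G : ∀ i, X → Submodule k (M i)} {e : M 0}

/-- arcs are acyclic -/
theorem acy_arc (h : Res d G e) {γ : ℝ → X} (hγ : Continuous γ) (hi : Function.Injective γ)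
    {T : Set ℝ} (hT : IsCompact T) (hc : Convex ℝ T) : Acy d G (γ '' T) := by
  have li := Function.leftInverse_invFun hi
  refine h.acy_convex 1 (hT.image hγ) (fun x _ => Function.invFun γ x)
    (continuousOn_pi.2 fun _ => continuousOn_iff_isClosed.2 fun t ht =>
      ⟨γ '' (T ∩ t), ((hT.inter_right ht).image hγ).isClosed, ?_⟩) ?_ ?_
  · ext x
    constructor
    · rintro ⟨a, s, hs, rfl⟩
      exact ⟨⟨s, ⟨hs, by rwa [mem_preimage, li] at a⟩, rfl⟩, s, hs, rfl⟩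
    · rintro ⟨⟨s, hs, rfl⟩, a⟩
      exact ⟨by rw [mem_preimage, li]; exact hs.2, a⟩
  · rintro _ ⟨s, -, rfl⟩ _ ⟨t, -, rfl⟩ a
    have := congrFun a 0
    simp only [li s, li t] at this
    rw [this]
  · rintro _ ⟨_, ⟨s, hs, rfl⟩, rfl⟩ _ ⟨_, ⟨t, ht, rfl⟩, rfl⟩ a b ha hb hab
    refine ⟨_, ⟨_, hc hs ht ha hb hab, rfl⟩, funext fun _ => ?_⟩
    simp only [li s, li t, li (a • s + b • t), Pi.add_apply, Pi.smul_apply]

variable {φ : ℝ → X → X} {N₀ Z : Set X} {B : ℝ → Set X}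

/-- the part of an orbit between two levels -/
theorem Exh.arc (h : Flo φ) (E : Exh φ N₀ B) (x : X) (hx : x ∉ N₀) (r r' : ℝ) :
    IsCompact {t | φ t x ∈ B r \ interior (B r')} ∧
      Convex ℝ {t | φ t x ∈ B r \ interior (B r')} := by
  obtain ⟨σ, a, -⟩ := E.last h hx r
  obtain ⟨b, hb⟩ := E.cup x
  have low : ∀ s t, s ≤ t → φ t x ∈ interior (B r') → φ s x ∈ interior (B r') := fun s t c u => by
    have := (E.mvi r' (s - t) _).2 u
    rw [← h.add, sub_add_cancel] at this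
    exact interior_mono (E.mono (by linarith)) this
  refine ⟨(isCompact_Icc (a := r' - b) (b := σ)).of_isClosed_subset
    (((E.cpt r).isClosed.sdiff isOpen_interior).preimage (h.c2 x))
    fun t ht => ⟨?_, (a t).1 ht.1⟩, convex_iff_ordConnected.2 ⟨fun s hs t ht u hu =>
      ⟨(a u).2 (hu.2.trans ((a t).1 ht.1)), fun c => hs.2 (low _ _ hu.1 c)⟩⟩⟩
  by_contra c
  have := (E.mvi b (r' - b) x).2 hb
  rw [add_sub_cancel] at this
  exact ht.2 (low _ _ (not_le.1 c).le this)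

theorem att_lev (R : Res d G e) (h : Flo φ) (hN : ∀ t, ∀ x ∈ N₀, φ t x ∈ N₀) (E : Exh φ N₀ B)
    (hZ : IsClosed Z) (hi : ∀ t, ∀ x ∈ Z, φ t x ∈ Z) {r r' : ℝ} (hr : r' ≤ r) (j : ℤ) :
    Vn d G (Z ∪ B r') (B r) j := by
  classical
  have hA : IsClosed (Z ∪ B r') := hZ.union (E.cpt r').isClosed
  have hC : IsCompact (B r \ interior (B r')) := (E.cpt r).diff isOpen_interior
  have hCN : B r \ interior (B r') ⊆ N₀ᶜ := fun x hx a => hx.2 (E.nb r' a)
  have e1 : B r = (B r \ interior (B r')) ∪ B r' := by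
    refine Subset.antisymm (fun x hx => ?_) (union_subset diff_subset (E.mono hr))
    by_cases a : x ∈ interior (B r')
    · exact Or.inr (interior_subset a)
    · exact Or.inl ⟨hx, a⟩
  rw [e1]
  refine van_exc R.dat hA hC (E.cpt r') subset_union_right ?_
  rcases (B r \ interior (B r')).eq_empty_or_nonempty with c | ⟨x₀, c⟩
  · rw [c]; exact van_sub R.dat (empty_subset _) j
  have := E.t2 h hN
  let g : X → Quotient (orb h N₀) := fun x =>
    if a : x ∈ N₀ᶜ then Quotient.mk _ ⟨x, a⟩ else Quotient.mk _ ⟨x₀, hCN c⟩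
  have hg : ∀ x (a : x ∈ N₀ᶜ), g x = Quotient.mk _ ⟨x, a⟩ := fun x a => dif_pos a
  have gc : ContinuousOn g (B r \ interior (B r')) := by
    rw [continuousOn_iff_continuous_restrict]
    refine (continuous_quotient_mk'.comp (continuous_inclusion hCN)).congr fun x => ?_
    exact (hg x (hCN x.2)).symm
  refine vb R.dat hA R.neg hC gc (fun j _ y => ?_) j le_rfl
  obtain ⟨⟨x, hx⟩, rfl⟩ := Quotient.exists_rep y
  have fib : (B r \ interior (B r')) ∩ g ⁻¹' {Quotient.mk _ ⟨x, hx⟩} =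
      (fun t => φ t x) '' {t | φ t x ∈ B r \ interior (B r')} := by
    ext w
    constructor
    · rintro ⟨a, b⟩
      rw [mem_preimage, hg w (hCN a)] at b
      obtain ⟨t, u⟩ := Quotient.exact (Eq.symm b)
      exact ⟨t, by rwa [mem_setOf_eq, show φ t x = w from u], u⟩
    · rintro ⟨t, a, rfl⟩
      refine ⟨a, ?_⟩
      rw [mem_preimage, hg _ (hCN a)]
      exact (Quotient.sound (s := orb h N₀) (a := ⟨x, hx⟩) ⟨t, rfl⟩).symm
  rw [fib]
  by_cases xz : x ∈ Z
  · refine van_sub R.dat ?_ j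
    rintro _ ⟨t, -, rfl⟩
    exact Or.inl (hi t x xz)
  obtain ⟨t1, t2⟩ := E.arc h x hx r r'
  obtain ⟨s1, s2⟩ := E.arc h x hx r' r'
  have e2 : (Z ∪ B r') ∩ (fun t => φ t x) '' {t | φ t x ∈ B r \ interior (B r')} =
      (fun t => φ t x) '' {t | φ t x ∈ B r' \ interior (B r')} := by
    ext w
    constructor
    · rintro ⟨a | a, t, b, rfl⟩
      · exact absurd (h.neg t x ▸ hi (-t) _ a) xz
      · exact ⟨t, ⟨a, b.2⟩, rfl⟩
    · rintro ⟨t, a, rfl⟩
      exact ⟨Or.inr a.1, t, ⟨E.mono hr a.1, a.2⟩, rfl⟩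
  refine R.vn_pair (acy_arc R (h.c2 x) (E.inj h hx) t1 t2) ?_ ?_ j
  · rw [e2]; exact acy_arc R (h.c2 x) (E.inj h hx) s1 s2
  · obtain ⟨σ, a, b⟩ := E.last h hx r'
    rw [e2]
    exact ⟨_, σ, ⟨(a σ).2 le_rfl, b⟩, rfl⟩

/-- the levels of the exhaustion have the cohomology of any closed invariant `Z ⊇ N₀` -/
theorem att_cpt (R : Res d G e) (h : Flo φ) (hN : ∀ t, ∀ x ∈ N₀, φ t x ∈ N₀) (E : Exh φ N₀ B)
    (hZ : IsClosed Z) (hi : ∀ t, ∀ x ∈ Z, φ t x ∈ Z) (hNZ : N₀ ⊆ Z) (r : ℝ) (j : ℤ) :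
    Vn d G Z (B r) j := by
  intro i l hij hjl s hs hd
  obtain ⟨r', a⟩ := E.small (R.dat.op j s) fun x hx =>
    mem_N.1 hs x ⟨hNZ hx, interior_subset (E.nb r hx)⟩
  obtain ⟨t, b, c⟩ := att_lev R h hN E hZ hi (min_le_right r' r) j i l hij hjl s
    (mem_N.2 fun x hx => hx.1.elim (fun u => mem_N.1 hs x ⟨u, hx.2⟩)
      fun u => a (E.mono (min_le_left _ _) u)) hd
  exact ⟨t, N_anti (inter_subset_inter_left _ subset_union_left) b, c⟩

end Vale.Agent.P275LM
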