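import Vale.Agent.P275LM.Tc

/-! # P275: the degeneration of a connection to the graded Higgs bundle -/

set_option linter.all false

open scoped Matrix.Norms.Operator Topology ContDiff ComplexOrder
open Filter Set Matrix Metric

noncomputable section

namespace Vale.Agent.P275LM

open Vale.Agent.P281Z.Hm Vale.Agent.P275GC Vale.Agent.P275GC.At Vale.Agent.P275KR
open Vale.Agent.P275NA (Fm Cy Mn Mr FrAt Sub degS cvS)
open Vale.Agent.P275MO (Good Stab InvC off Std Hom IsoBy FamOn)
open Vale.Agent.P275MB (off_open off_ev off_tr dmul)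

variable {C : Type} [TopologicalSpace C] [T2Space C] [ConnectedSpace C] {A : At C} {n m : ℕ}
  {l : Cy A ℂ} {z : P275MO.Dat C A.N n} {i j : Fin A.N} {w s : ℂ} {P : Fm A (ℕ → Mn n)}
  {u : Mn n} {d : Fin n → ℕ}

/-- the connection applied to the projectors -/
def Yq (z : P275MO.Dat C A.N n) (P : Fm A (ℕ → Mn n)) (i : Fin A.N) (w : ℂ) (q : ℕ) : Mn n :=
  z.lam • deriv (fun y => P i y q) w + z.a i w * P i w q

/-- local gradings which split a transverse filtration, with an adapted frame -/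
structure Grd (A : At C) (z : P275MO.Dat C A.N n) (m : ℕ) (P : Fm A (ℕ → Mn n)) (u : Mn n)
    (d : Fin n → ℕ) : Prop where
  ps : ∀ i, ∀ w ∈ ball (0 : ℂ) A.R, Ps m (P i w)
  an : ∀ i, ∀ w ∈ ball (0 : ℂ) A.R, ∀ p, AnalyticAt ℂ (fun y => P i y p) w
  lg : ∀ i j, ∀ w ∈ A.O i j, Lv 0 (P i w) (z.g i j w) (P j (A.tr i j w))
  la : ∀ i, ∀ w ∈ off A z.x i, ∀ p q, p + 1 < q → P i w p * Yq z P i w q = 0
  ud : u.det = 1
  dm : ∀ k, d k < m
  ls : ∀ i, z.x ∈ (A.e i).source → Lv 0 (P i (A.e i z.x)) (z.σ i * u) (cg d) ∧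
    Lv 0 (cg d) (z.σ i * u)⁻¹ (P i (A.e i z.x))

/-- the degeneration -/
def fam (A : At C) (z : P275MO.Dat C A.N n) (m : ℕ) (P : Fm A (ℕ → Mn n)) (u : Mn n)
    (d : Fin n → ℕ) (s : ℂ) : P275MO.Dat C A.N n :=
  ⟨s * z.lam, z.x, fun i j w => cj m 0 s (P i w) (z.g i j w) (P j (A.tr i j w)),
    fun i w => rs m 1 s (P i w) (Yq z P i w),
    fun i => cj m 0 s (P i (A.e i z.x)) (z.σ i * u) (cg d), cj m 1 s (cg d) (u⁻¹ * z.R * u) (cg d)⟩

theorem an_rs {k : ℕ} {Q Y : ℂ → ℕ → Mn n} (hQ : ∀ p, AnalyticAt ℂ (fun y => Q y p) w)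
    (hY : ∀ p, AnalyticAt ℂ (fun y => Y y p) w) : AnalyticAt ℂ (fun y => rs m k s (Q y) (Y y)) w :=
  Finset.analyticAt_fun_sum _ fun p _ => Finset.analyticAt_fun_sum _ fun q _ =>
    an_msmul _ (an_mul (hQ p) (hY q))

theorem deriv_rs {k : ℕ} {Q Y : ℂ → ℕ → Mn n} (hQ : ∀ p, AnalyticAt ℂ (fun y => Q y p) w)
    (hY : ∀ p, AnalyticAt ℂ (fun y => Y y p) w) :
    Continuous fun s => deriv (fun y => rs m k s (Q y) (Y y)) w := by
  have : ∀ s, deriv (fun y => rs m k s (Q y) (Y y)) w = ∑ p ∈ Finset.range m,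
      ∑ q ∈ Finset.range m, s ^ (p + k - q) • deriv (fun y => Q y p * Y y q) w := fun s =>
    (HasDerivAt.fun_sum fun p _ => HasDerivAt.fun_sum fun q _ =>
      (an_mul (hQ p) (hY q)).differentiableAt.hasDerivAt.fun_const_smul (s ^ (p + k - q))).deriv
  simp only [this]
  fun_prop

theorem ct_rs {T : Type} [TopologicalSpace T] {k : ℕ} {Q Y : T → ℕ → Mn n} {c : T → ℂ} {V : Set T}
    (hc : ContinuousOn c V) (hQ : ∀ p, ContinuousOn (fun y => Q y p) V)
    (hY : ∀ p, ContinuousOn (fun y => Y y p) V) :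
    ContinuousOn (fun y => rs m k (c y) (Q y) (Y y)) V :=
  continuousOn_finset_sum _ fun p _ => continuousOn_finset_sum _ fun q _ =>
    (hc.pow _).smul ((hQ p).mul (hY q))

theorem an_gp {Q : ℂ → ℕ → Mn n} (hQ : ∀ p, AnalyticAt ℂ (fun y => Q y p) w) :
    AnalyticAt ℂ (fun y => gp m s (Q y)) w :=
  Finset.analyticAt_fun_sum _ fun p _ => an_msmul _ (hQ p)

theorem deriv_gp {Q : ℂ → ℕ → Mn n} (hQ : ∀ p, AnalyticAt ℂ (fun y => Q y p) w) :
    deriv (fun y => gp m s (Q y)) w = gp m s fun q => deriv (fun y => Q y q) w :=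
  (HasDerivAt.fun_sum fun p _ =>
    (hQ p).differentiableAt.hasDerivAt.fun_const_smul (s ^ p)).deriv

theorem lv0 {Q Q' : ℕ → Mn n} {X : Mn n} (h : Lv 0 Q X Q') : Lv (-(0 : ℕ)) Q X Q' := h

theorem law_alg {Φ Φ' Ψ Ψ' G G' g g' a b a2 b2 : Mn n} {t c e : ℂ} (e1 : Φ * G = g * Ψ)
    (e2 : (s * t) • Φ' + (s • a) * Φ = Φ * a2) (e3 : (s * t) • Ψ' + (s • b) * Ψ = Ψ * b2)
    (e4 : Φ' * G + Φ * G' = g' * Ψ + g * (e • Ψ')) (e5 : a * g + t • g' = e • (g * b) + c • g) :
    Φ * (a2 * G + (s * t) • G') = Φ * (e • (G * b2) + (s * c) • G) := by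
  have h2 := congrArg (· * G) e2
  have h3 := congrArg (g * ·) e3
  have h5 := congrArg (· * Ψ) e5
  have h1 := congrArg (· * b2) e1
  have h0 := congrArg (a * ·) e1
  simp only [mul_add, add_mul, smul_mul_assoc, mul_smul_comm, mul_assoc] at *
  linear_combination (norm := module) (-1 : ℂ) • h2 + (s * t) • e4 + s • h0 + s • h5 + e • h3
    - e • h1 - (s * c) • e1

theorem Grd.an_Y (G : Grd A z m P u d) (g : Good A l z) (h : w ∈ off A z.x i) (q : ℕ) :
    AnalyticAt ℂ (fun y => Yq z P i y q) w :=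
  (an_msmul _ (G.an i w h.1 q).deriv).add (an_mul (an_a g h) (G.an i w h.1 q))

theorem Grd.an_tr (G : Grd A z m P u d) (h : w ∈ A.O i j) (q : ℕ) :
    AnalyticAt ℂ (fun y => P j (A.tr i j y) q) w :=
  (G.an j _ (tr_ball h) q).comp (f := A.tr i j) (At.an_tr h)

theorem Grd.hom (G : Grd A z m P u d) (hs : s ≠ 0) :
    Hom A (fam A z m P u d s) (z.smul s) fun i w => gp m s⁻¹ (P i w) where
  lam := rfl
  x := rfl
  hol := P275MB.hl_of fun i w hw => an_gp (G.an i w hw)
  law i j w h := ((G.ps i w h.1).gp_cj hs (lv0 (G.lg i j w h))).trans (by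
    rw [pow_zero, one_smul]; rfl)
  con i w h := by
    refine Eq.trans ?_ ((G.ps i w h.1).gp_rs hs (G.la i w h)).symm
    rw [deriv_gp (G.an i w h.1), pow_one]
    simp only [fam, P275MO.Dat.smul, gp, Yq, Finset.mul_sum, Finset.smul_sum, smul_add,
      ← Finset.sum_add_distrib, smul_smul, mul_smul_comm, smul_mul_assoc]
    refine Finset.sum_congr rfl fun q _ => ?_
    congr 2 <;> ring

theorem Grd.isoBy (G : Grd A z m P u d) (hs : s ≠ 0) :
    IsoBy A (fam A z m P u d s) (z.smul s) (fun i w => gp m s⁻¹ (P i w))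
      (u * gp m s⁻¹ (cg d)) where
  toHom := G.hom hs
  det i w hw := (G.ps i w hw).det_gp (inv_ne_zero hs)
  fr i h := ((G.ps i _ (map_src h)).gp_cj hs (lv0 (G.ls i h).1)).trans (by
    rw [pow_zero, one_smul, mul_assoc]; rfl)

theorem Grd.tend (G : Grd A z m P u d) (g : Good A l z) (h : z.x ∈ (A.e i).source) (p q : ℕ) :
    Tendsto (fun w => (w - A.e i z.x) • (P i w p * Yq z P i w q)) (𝓝[≠] (A.e i z.x))
      (𝓝 (P i (A.e i z.x) p * (z.σ i * z.R * (z.σ i)⁻¹ * P i (A.e i z.x) q))) := by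
  have a := fun r => ((G.an i _ (map_src h) r).continuousAt.tendsto.mono_left
    (nhdsWithin_le_nhds (s := {A.e i z.x}ᶜ)))
  have b : Tendsto (fun w => w - A.e i z.x) (𝓝[≠] (A.e i z.x)) (𝓝 0) := by
    have : Continuous fun w => w - A.e i z.x := by fun_prop
    simpa using (this.tendsto (A.e i z.x)).mono_left nhdsWithin_le_nhds
  have c := (a p).mul ((b.smul (((G.an i _ (map_src h) q).deriv.continuousAt.tendsto.mono_left
    nhdsWithin_le_nhds).const_smul z.lam)).add ((g.pole i h).mul (a q)))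
  rw [zero_smul, zero_add] at c
  refine c.congr fun w => ?_
  rw [Yq, ← mul_smul_comm, smul_add, smul_mul_assoc]
  rfl

theorem Grd.lres (G : Grd A z m P u d) (g : Good A l z) (h : z.x ∈ (A.e i).source) :
    Lv (-(1 : ℕ)) (P i (A.e i z.x)) (z.σ i * z.R * (z.σ i)⁻¹) (P i (A.e i z.x)) := fun p q c => by
  rw [mul_assoc]
  refine tendsto_nhds_unique (G.tend g h p q) (tendsto_const_nhds.congr' ?_)
  filter_upwards [off_ev h] with w hw
  rw [G.la i w hw p q (by omega), smul_zero]

theorem Grd.lR (G : Grd A z m P u d) (g : Good A l z) :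
    Lv (-(1 : ℕ)) (cg d) (u⁻¹ * z.R * u) (cg d) := by
  obtain ⟨i, h, -⟩ := A.cov z.x
  have p := G.ps i _ (map_src h)
  have := (((G.ls i h).2.mul (G.lres g h) p).mul (G.ls i h).1 p).mono (b := -(1 : ℕ)) (by simp)
  rwa [Matrix.mul_inv_rev, show u⁻¹ * (z.σ i)⁻¹ * (z.σ i * z.R * (z.σ i)⁻¹) * (z.σ i * u) =
    u⁻¹ * z.R * u by
      simp only [mul_assoc, nonsing_inv_mul_cancel_left _ _ (g.fr i h).isUnit]] at this

theorem Grd.tr_d (G : Grd A z m P u d) (h : w ∈ ball (0 : ℂ) A.R) (p q : ℕ) :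
    (P i w p * deriv (fun y => P i y q) w).trace = 0 := by
  have a := G.an i w h q
  have e : deriv (fun y => P i y q) w = deriv (fun y => P i y q) w * P i w q +
      P i w q * deriv (fun y => P i y q) w := by
    rw [← dmul a a]
    exact EventuallyEq.deriv_eq ((ev_ball h).mono fun y b => ((G.ps i y b).sq q).symm)
  have r := G.ps i w h
  by_cases c : p = q
  · subst c
    have := congrArg (fun X => (P i w p * X).trace) e
    simp only [mul_add, trace_add, ← mul_assoc, r.sq] at this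
    rw [trace_mul_comm (_ * _) (P i w p), ← mul_assoc, r.sq] at this
    exact left_eq_add.1 this
  · rw [e, mul_add, trace_add, ← mul_assoc, ← mul_assoc, r.ne p q c, trace_mul_comm,
      ← mul_assoc, r.ne q p (Ne.symm c)]
    simp

theorem Grd.cc (G : Grd A z m P u d) (g : Good A l z) (s : ℂ) : A.Cc (fam A z m P u d s).g where
  hol i j w h := (an_rs (G.an i w h.1) fun q =>
    an_mul (g.cc.an h) (G.an_tr h q)).differentiableAt.differentiableWithinAt
  one i w h := by
    simp only [fam]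
    rw [g.cc.one i w h, tr_self h, (G.ps i w h).cj_one]
  mul i j k w h h' := by
    simp only [fam]
    rw [g.cc.mul i j k w h h', cj_mul (G.ps i w h.1) (G.ps j _ (tr_ball h)) (lv0 (G.lg i j w h))
      (lv0 (G.lg j k _ (tr_O h h'))), tr_tr h]

theorem Grd.det_σ (G : Grd A z m P u d) (g : Good A l z) (s : ℂ) (h : z.x ∈ (A.e i).source) :
    ((fam A z m P u d s).σ i).det ≠ 0 := by
  have a : (z.σ i * u).det ≠ 0 := by rw [Matrix.det_mul, G.ud, mul_one]; exact g.fr i h
  exact (det_cj (G.ps i _ (map_src h)) (ps_cg G.dm) (G.ls i h).1 (G.ls i h).2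
    (nonsing_inv_mul _ a.isUnit) s).trans_ne a

theorem Grd.good (G : Grd A z m P u d) (g : Good A l z) (s : ℂ) :
    Good A l (fam A z m P u d s) where
  cc := G.cc g s
  det i j w h := by
    have := G.lg j i _ (tr_mem h)
    rw [tr_inv h] at this
    exact (det_cj (G.ps i w h.1) (G.ps j _ (tr_ball h)) (G.lg i j w h) this (g.cc.inv' h) s).trans
      (g.det i j w h)
  hol i w h := (an_rs (G.an i w h.1) (G.an_Y g h)).differentiableAt.differentiableWithinAt
  tr i w h := by
    have r := G.ps i w h.1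
    have : ∀ p q, (P i w p * Yq z P i w q).trace =
        if p = q then (P i w q * z.a i w).trace else 0 := fun p q => by
      rw [Yq, mul_add, mul_smul_comm, trace_add, trace_smul, G.tr_d h.1, smul_zero, zero_add,
        ← mul_assoc, trace_mul_comm, ← mul_assoc]
      split_ifs with c
      · rw [c, r.sq]
      · rw [r.ne q p (Ne.symm c), zero_mul, trace_zero]
    simp only [fam, rs, trace_sum, trace_smul, this, smul_ite, smul_zero]
    rw [Finset.sum_congr rfl fun p hp => (Finset.sum_ite_eq _ _ _).trans (if_pos hp)]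
    simp only [Nat.add_sub_cancel_left]
    rw [← Finset.smul_sum, ← trace_sum, ← Finset.sum_mul, r.sum, one_mul, g.tr i w h, smul_zero]
  law i j w h hx := by
    obtain ⟨c, e⟩ := g.law i j w h hx
    have aY := fun q => an_mul (g.cc.an h) (G.an_tr h q)
    refine ⟨s * c, ext0 (f := fun s => (fam A z m P u d s).a i w * (fam A z m P u d s).g i j w +
      (s * z.lam) • deriv ((fam A z m P u d s).g i j) w) (g := fun s => A.d i j w •
      ((fam A z m P u d s).g i j w * (fam A z m P u d s).a j (A.tr i j w)) +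
        (s * c) • (fam A z m P u d s).g i j w) ((cont_rs.mul cont_cj).add
      ((continuous_id.mul continuous_const).smul (deriv_rs (G.an i w h.1) aY)))
      (((cont_cj.mul cont_rs).const_smul (A.d i j w)).add
        ((continuous_id.mul continuous_const).smul cont_cj)) (fun s hs => ?_) s⟩
    have f := G.hom hs
    have a1 := f.hol.an h.1 i
    have a2 := f.hol.an (tr_ball h) j
    have e1 := f.law i j w h
    have e2 := f.con i w ⟨h.1, hx⟩
    have e3 := f.con j _ (off_tr h hx)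
    have e4 := EventuallyEq.deriv_eq (eventually_of_mem (O_nhds h) (f.law i j))
    have e5 : deriv (fun y => gp m s⁻¹ (P j (A.tr i j y))) w =
        A.d i j w • deriv (fun y => gp m s⁻¹ (P j y)) (A.tr i j w) :=
      (a2.differentiableAt.hasDerivAt.scomp w (has_tr h)).deriv
    have e6 := (dmul a1 ((G.cc g s).an h)).symm.trans (e4.trans (dmul (g.cc.an h)
      (a2.comp (f := A.tr i j) (At.an_tr h))))
    exact (G.ps i w h.1).cancel hs (law_alg e1 e2 e3 (e6.trans (by rw [← e5]; rfl)) e)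
  fr i h := G.det_σ g s h
  frc i j h h' := by
    change z.x ∈ _ at h h'
    simp only [fam]
    have o := mem_O h h'
    have := cj_mul (G.ps i _ o.1) (G.ps j _ (tr_ball o)) (lv0 (G.lg i j _ o))
      (lv0 (by rw [tr_e h]; exact (G.ls j h').1)) s
    rw [tr_e h] at this ⊢
    rw [this, ← mul_assoc, ← g.frc i j h h']
  pole i h := by
    change z.x ∈ _ at h
    have p := G.ps i _ (map_src h)
    have e : (fam A z m P u d s).σ i * (fam A z m P u d s).R * ((fam A z m P u d s).σ i)⁻¹ =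
        cj m 1 s (P i (A.e i z.x)) (z.σ i * z.R * (z.σ i)⁻¹) (P i (A.e i z.x)) := by
      rw [← mul_nonsing_inv_cancel_right _ (cj m 1 _ _ _ _) (G.det_σ g s h).isUnit]
      congr 1
      simp only [fam]
      rw [cj_mul p (ps_cg G.dm) (lv0 (G.ls i h).1) (G.lR g), cj_mul p p (G.lres g h)
        (lv0 (G.ls i h).1)]
      simp only [mul_assoc, nonsing_inv_mul_cancel_left _ _ (g.fr i h).isUnit,
        mul_nonsing_inv_cancel_left _ _ (G.ud ▸ isUnit_one : IsUnit u.det)]
    rw [e]
    simp only [fam, cj, rs, Finset.smul_sum, smul_comm (_ - A.e i z.x)]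
    exact tendsto_finset_sum _ fun p _ => tendsto_finset_sum _ fun q _ =>
      (G.tend g h p q).const_smul _

theorem Grd.famOn (G : Grd A z m P u d) (g : Good A l z) : FamOn A l (fam A z m P u d) univ where
  good s _ := G.good g s
  lam := (continuous_id.mul continuous_const).continuousOn
  x := continuousOn_const
  R := cont_cj.continuousOn
  g i j := ct_rs continuousOn_fst
    (fun p y h => ((G.an i _ h.2.1 p).continuousAt.comp continuousAt_snd).continuousWithinAt)
    fun p y h => ((an_mul (g.cc.an h.2) (G.an_tr h.2 p)).continuousAt.comp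
      continuousAt_snd).continuousWithinAt
  a i := ct_rs continuousOn_fst
    (fun p y h => ((G.an i _ h.2.1 p).continuousAt.comp continuousAt_snd).continuousWithinAt)
    fun p y h => ((G.an_Y g h.2 p).continuousAt.comp continuousAt_snd).continuousWithinAt
  σ i := cont_cj.continuousOn

end Vale.Agent.P275LM
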