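import Vale.Agent.P275LM.Lim
import Vale.Agent.P275LM.Flow
import Vale.Agent.P275NU.Props
import Vale.Agent.P275HN.Defs

/-! # P275: limits of the scaling on the moduli spaces -/

set_option linter.all false

open scoped Matrix.Norms.Operator Topology
open Filter Set Matrix Metric

noncomputable section

namespace Vale.Agent.P275LM

open Vale.Agent.P281Z.Hm Vale.Agent.P275GC Vale.Agent.P275GC.At
open Vale.Agent.P275NA (Fm Cy Mn)
open Vale.Agent.P275MO hiding Dat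
open Vale.Agent.P275MB (sc fl)
open Vale.Agent.P275Z (bor)

variable {C : Type} [TopologicalSpace C] {A : At C} {n : ℕ} {l : Cy A ℂ} {e : ℤ}
  {z : P275MO.Dat C A.N n} {τ : Ty n}

theorem std_res (S : Std A l n e) {r : ℝ} (h1 : 1 < r) (h2 : r ≤ A.R) :
    Std (A.res r h1 h2) l n e :=
  ⟨S.t2, S.cpt, S.conn, S.cc.res, (res_deg l).trans S.deg, S.two, S.cop⟩

/-- the degeneration of an object, on one atlas -/
theorem lim_pj (S : Std A l n e) (g : Good A l z) (st : Stab A l z) (pj : PJ A z.g) :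
    ∃ G : ℂ → P275MO.Dat C A.N n, FamOn A l G univ ∧ (G 0).lam = 0 ∧ (∀ s, Stab A l (G s)) ∧
      ∀ s, s ≠ 0 → ∃ φ, ∃ h ∈ bor n, IsoBy A (G s) (z.smul s) φ h := by
  have := S.t2
  have := S.conn
  obtain ⟨m, P, u, d, G, hu, s0⟩ := lim0 S g st pj
  refine ⟨_, G.famOn g, zero_mul _, fun s => ?_, fun s hs =>
    ⟨_, _, (bor n).mul_mem hu (gp_cg d), G.isoBy hs⟩⟩
  by_cases hs : s = 0
  · exact hs ▸ s0
  · exact P275MB.Stab.iso (G.good g s) (P275MB.Good.smul g s) (G.hom hs) (G.isoBy hs).det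
      ((P275MB.stab_smul hs).2 st)

/-- **(L)** for objects, on the discs of any smaller radius -/
theorem lim_str (S : Std A l n e) (g : Good A l z) (st : Stab A l z) {r : ℝ} (h1 : 1 < r)
    (h2 : r < A.R) : ∃ G : ℂ → P275MO.Dat C A.N n, FamOn (A.res r h1 h2.le) l G univ ∧
      (G 0).lam = 0 ∧ (∀ s, Stab (A.res r h1 h2.le) l (G s)) ∧
      ∀ s, s ≠ 0 → ∃ φ, ∃ h ∈ bor n, IsoBy (A.res r h1 h2.le) (G s) (z.smul s) φ h :=
  have := S.t2
  have := S.conn
  lim_pj (std_res S h1 h2.le) (P275MB.Good.res g) ((P275MB.stab_res g).2 st) (pj_res g.cc h1 h2)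

/-- **(L)** for objects -/
theorem lim_ob (S : Std A l n e) (z : P275MO.Dat C A.N n) (g : Good A l z) (st : Stab A l z) :
    ∃ (r : ℝ) (h1 : 1 < r) (h2 : r ≤ A.R) (G : ℂ → P275MO.Dat C A.N n),
      FamOn (A.res r h1 h2) l G univ ∧ (G 0).lam = 0 ∧ Stab (A.res r h1 h2) l (G 0) ∧
      ∀ s, s ≠ 0 → ∃ φ h, IsoBy (A.res r h1 h2) (G s) (z.smul s) φ h := by
  obtain ⟨r, h1, h2⟩ := exists_between A.hR
  obtain ⟨G, a, b, c, d⟩ := lim_str S g st h1 h2
  exact ⟨r, h1, h2.le, G, a, b, c 0, fun s hs => let ⟨φ, h, _, f⟩ := d s hs; ⟨φ, h, f⟩⟩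

/-- **(L)** the orbits of the scaling extend continuously to `s = 0` -/
theorem lim_mod (S : Std A l n e) (hτ : bor n ≤ τ.H) (y : Mod A l τ) :
    ∃ G : ℂ → Mod A l τ, Continuous G ∧ ∀ s : ℂˣ, G s = sc s y := by
  have := S.t2
  have := S.conn
  obtain ⟨y, rfl⟩ := pt_surj y
  obtain ⟨r₀, a1, a2, g₀⟩ := P275MB.Ob.ex y
  obtain ⟨r, h1, h2⟩ := exists_between a1
  have g := P275MB.Good.mono g₀ h1 h2.le
  obtain ⟨G, a, -, c, d⟩ := lim_pj (std_res S h1 _) g (P275MB.IsOb.stab y.2 g)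
    (pj_mono g₀.cc h1 h2)
  have q : ∀ s, (G s).R ∈ τ.q := fun s => by
    refine (dense_compl_singleton (0 : ℂ)).induction (P := fun s => (G s).R ∈ τ.q) (fun s hs => ?_)
      (τ.q.closed_of_finiteDimensional.preimage (continuousOn_univ.1 a.R)) s
    obtain ⟨φ, h, b, f⟩ := d s hs
    have k := a.good s trivial
    have f' := P275MB.IsoBy.symm k f
    rw [P275MB.IsoBy.R (P275MB.Good.smul g s) k f']
    exact (τ.conj _ (P275MB.inv_mem_alg (hτ b) (P275MB.IsoBy.det_h k f))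
      (P275MB.IsoBy.det_h (P275MB.Good.smul g s) f') _ (τ.q.smul_mem s y.2.2)).1
  let F : ℂ → Ob A l τ := fun s => ⟨G s, ⟨r, h1, _, a.good s trivial, c s⟩, q s⟩
  refine ⟨fun s => (F s).pt, continuous_iff_continuousAt.2 fun s =>
    FamAt.continuousAt ⟨r, h1, _, univ, univ_mem, a⟩, fun s => ?_⟩
  obtain ⟨φ, h, b, f⟩ := d s s.ne_zero
  exact Quot.sound ⟨r, h1, _, φ, h, hτ b, f⟩

section limit

variable {G : ℂ → Mod A l τ} {y : Mod A l τ}

theorem lim_lam (c : Continuous G) (h : ∀ s : ℂˣ, G s = sc s y) (s : ℂ) : (G s).lam = s * y.lam :=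
  ext0 (P275MB.cont_lam.comp c) (continuous_id.mul continuous_const)
    (fun s hs => (congrArg Mod.lam (h (Units.mk0 s hs))).trans (P275MB.lam_sc _ _)) s

theorem lim_η (c : Continuous G) (h : ∀ s : ℂˣ, G s = sc s y) (s : ℂ) : (G s).η = s • y.η :=
  ext0 (P275MB.cont_η.comp c) (continuous_id.smul continuous_const)
    (fun s hs => (congrArg Mod.η (h (Units.mk0 s hs))).trans (P275MB.η_sc _ _)) s

theorem lim_x [T2Space C] (c : Continuous G) (h : ∀ s : ℂˣ, G s = sc s y) (s : ℂ) :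
    (G s).x = y.x :=
  ext0 (P275MB.cont_x.comp c) continuous_const
    (fun s hs => (congrArg Mod.x (h (Units.mk0 s hs))).trans (P275MB.x_sc _ _)) s

theorem lim_sc [T2Space (Mod A l τ)] (c : Continuous G) (h : ∀ s : ℂˣ, G s = sc s y) (t : ℂˣ)
    (s : ℂ) : sc t (G s) = G (t * s) :=
  ext0 (f := fun s => sc t (G s)) (g := fun s => G (t * s))
    (P275MB.cont_sc.comp (continuous_const.prodMk c))
    (c.comp (continuous_const.mul continuous_id)) (fun s hs =>
      (congrArg (sc t) (h (Units.mk0 s hs))).trans ((P275MB.sc_mul _ _ _).symm.trans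
        (h (t * Units.mk0 s hs)).symm)) s

theorem lim_fix [T2Space (Mod A l τ)] (c : Continuous G) (h : ∀ s : ℂˣ, G s = sc s y) (t : ℂˣ) :
    sc t (G 0) = G 0 := by rw [lim_sc c h, mul_zero]

theorem lim_fl (c : Continuous G) (h : ∀ s : ℂˣ, G s = sc s y) :
    Tendsto (fun t : ℝ => fl t y) atBot (𝓝 (G 0)) := by
  have a : Tendsto (fun t : ℝ => ((Real.exp t : ℝ) : ℂ)) atBot (𝓝 ((0 : ℝ) : ℂ)) :=
    (Complex.continuous_ofReal.tendsto 0).comp Real.tendsto_exp_atBot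
  refine ((c.tendsto 0).comp a).congr fun t => ?_
  rw [Function.comp, Complex.ofReal_exp]
  exact h (Units.mk0 _ (Complex.exp_ne_zero t))

end limit

/-- **(L)** the flow has limits in negative times, they are fixed by the scaling -/
theorem lim_flow (S : Std A l n e) (hτ : bor n ≤ τ.H) [T2Space (Mod A l τ)] (y : Mod A l τ) :
    ∃ y₀ : Mod A l τ, y₀.lam = 0 ∧ y₀.η = 0 ∧ y₀.x = y.x ∧ (∀ t, sc t y₀ = y₀) ∧
      Tendsto (fun t : ℝ => fl t y) atBot (𝓝 y₀) := by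
  have := S.t2
  obtain ⟨G, c, h⟩ := lim_mod S hτ y
  exact ⟨G 0, by rw [lim_lam c h, zero_mul], by rw [lim_η c h, zero_smul], lim_x c h 0,
    lim_fix c h, lim_fl c h⟩

theorem lim_nu (S : Std A l n e) : P275NU.LIM A n l := fun y => by
  obtain ⟨G, c, h⟩ := lim_mod (τ := P275Z.tauX n) S le_top y
  exact ⟨G 0, by rw [lim_lam c h, zero_mul], mem_closure_of_tendsto (lim_fl c h)
    (Eventually.of_forall fun t => ⟨_, rfl⟩)⟩

theorem flo_fl : Flo (fl : ℝ → Mod A l τ → Mod A l τ) :=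
  ⟨P275MB.cont_fl, P275MB.fl_zero, P275MB.fl_add⟩

/-- **ATT** a compact invariant set which contains the bounded half orbits is an attractor -/
theorem att_of (S : Std A l n e) (hτ : bor n ≤ τ.H) [T2Space (Mod A l τ)] {N : Set (Mod A l τ)}
    (cpt : IsCompact N) (inv : ∀ t, ∀ x ∈ N, fl t x ∈ N)
    (bdd : ∀ w K, IsCompact K → (∀ t, 0 ≤ t → fl t w ∈ K) → w ∈ N) : Att fl N where
  toFlo := flo_fl
  cpt := cpt
  inv := inv
  bdd := bdd
  near y U o h := by
    obtain ⟨y₀, -, -, -, f, t⟩ := lim_flow S hτ y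
    exact (t.eventually (o.mem_nhds (h (bdd y₀ {y₀} isCompact_singleton fun _ _ => f _)))).exists

end Vale.Agent.P275LM
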