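import Mathlib

/-! # P275: gradings by systems of projectors, the Rees construction for matrices -/

set_option linter.all false

open Finset Matrix

noncomputable section

namespace Vale.Agent.P275LM

variable {n : Type} [Fintype n] [DecidableEq n]

theorem ext0 {X : Type*} [TopologicalSpace X] [T2Space X] {f g : ℂ → X} (hf : Continuous f)
    (hg : Continuous g) (h : ∀ s, s ≠ 0 → f s = g s) (s : ℂ) : f s = g s :=
  congrFun (hf.ext_on (dense_compl_singleton 0) hg h) s

theorem det_of_nilp {Q : Matrix n n ℂ} (h : IsNilpotent (Q - 1)) : Q.det = 1 := by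
  have a := (Matrix.isNilpotent_charpoly_sub_pow_of_isNilpotent h.neg).eq_zero
  have b := congrArg (Polynomial.eval 1) (sub_eq_zero.1 a)
  rw [Matrix.eval_charpoly] at b
  simpa using b

/-- a complete system of orthogonal projectors -/
structure Ps (m : ℕ) (P : ℕ → Matrix n n ℂ) : Prop where
  sq : ∀ p, P p * P p = P p
  ne : ∀ p q, p ≠ q → P p * P q = 0
  sum : ∑ p ∈ range m, P p = 1

/-- `X` raises the degree by at least `k` -/
def Lv (k : ℤ) (P : ℕ → Matrix n n ℂ) (X : Matrix n n ℂ) (P' : ℕ → Matrix n n ℂ) : Prop :=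
  ∀ p q : ℕ, (p : ℤ) < q + k → P p * X * P' q = 0

/-- the Rees construction -/
def rs (m k : ℕ) (s : ℂ) (P Y : ℕ → Matrix n n ℂ) : Matrix n n ℂ :=
  ∑ p ∈ range m, ∑ q ∈ range m, s ^ (p + k - q) • (P p * Y q)

/-- the Rees construction of a map -/
def cj (m k : ℕ) (s : ℂ) (P : ℕ → Matrix n n ℂ) (X : Matrix n n ℂ) (P' : ℕ → Matrix n n ℂ) :
    Matrix n n ℂ := rs m k s P fun q => X * P' q

/-- the one parameter group of a grading -/
def gp (m : ℕ) (s : ℂ) (P : ℕ → Matrix n n ℂ) : Matrix n n ℂ := ∑ q ∈ range m, s ^ q • P q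

variable {m k k' : ℕ} {s : ℂ} {P P' P'' Y : ℕ → Matrix n n ℂ} {X X' : Matrix n n ℂ} {a b : ℤ}

theorem Ps.zero (h : Ps m P) {p : ℕ} (hp : m ≤ p) : P p = 0 := by
  rw [← mul_one (P p), ← h.sum, mul_sum]
  exact sum_eq_zero fun q hq => h.ne p q (by have := mem_range.1 hq; omega)

theorem Ps.gp_mul (h : Ps m P) (s : ℂ) (p : ℕ) : gp m s P * P p = s ^ p • P p := by
  rw [gp, sum_mul, sum_eq_single p (fun q _ e => by rw [smul_mul_assoc, h.ne q p e, smul_zero])
    fun e => by rw [h.zero (by simpa using e), smul_zero, zero_mul], smul_mul_assoc, h.sq]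

theorem Ps.mul_gp (h : Ps m P) (s : ℂ) (p : ℕ) : P p * gp m s P = s ^ p • P p := by
  rw [gp, mul_sum, sum_eq_single p (fun q _ e => by rw [mul_smul_comm, h.ne p q e.symm, smul_zero])
    fun e => by rw [h.zero (by simpa using e), zero_mul], mul_smul_comm, h.sq]

theorem Ps.gp_gp (h : Ps m P) (s t : ℂ) : gp m s P * gp m t P = gp m (s * t) P := by
  rw [gp, gp, gp, mul_sum]
  exact sum_congr rfl fun q _ => by
    rw [mul_smul_comm, ← gp, h.gp_mul, smul_smul, mul_pow, mul_comm]

theorem Ps.gp_one (h : Ps m P) : gp m 1 P = 1 := by simp [gp, h.sum]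

theorem Ps.gp_inv (h : Ps m P) (hs : s ≠ 0) : gp m s P * gp m s⁻¹ P = 1 := by
  rw [h.gp_gp, mul_inv_cancel₀ hs, h.gp_one]

theorem Ps.det_gp (h : Ps m P) (hs : s ≠ 0) : (gp m s P).det ≠ 0 :=
  det_ne_zero_of_right_inverse (h.gp_inv hs)

theorem Ps.cancel (h : Ps m P) (hs : s ≠ 0) (e : gp m s⁻¹ P * X = gp m s⁻¹ P * X') : X = X' := by
  have := congrArg (gp m s P * ·) e
  simpa only [← mul_assoc, h.gp_inv hs, one_mul] using this

theorem Ps.gp_rs (h : Ps m P) (hs : s ≠ 0) (z : ∀ p q, p + k < q → P p * Y q = 0) :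
    gp m s⁻¹ P * rs m k s P Y = s ^ k • gp m s⁻¹ Y := by
  have : ∀ p q, gp m s⁻¹ P * s ^ (p + k - q) • (P p * Y q) = (s ^ k * s⁻¹ ^ q) • (P p * Y q) := by
    intro p q
    by_cases c : p + k < q
    · rw [z p q c, smul_zero, smul_zero, mul_zero]
    · rw [mul_smul_comm, ← mul_assoc, h.gp_mul, smul_mul_assoc, smul_smul, pow_sub₀ s hs (by omega)]
      congr 1
      rw [pow_add, inv_pow, inv_pow]
      field_simp
  rw [rs, mul_sum]
  simp only [mul_sum, this]
  rw [sum_comm, gp, smul_sum]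
  refine sum_congr rfl fun q _ => ?_
  rw [← smul_sum, ← sum_mul, h.sum, one_mul, smul_smul]

theorem gp_mul_left (X : Matrix n n ℂ) : gp m s (fun q => X * P q) = X * gp m s P := by
  simp only [gp, mul_sum, mul_smul_comm]

theorem Ps.gp_cj (h : Ps m P) (hs : s ≠ 0) (z : Lv (-k) P X P') :
    gp m s⁻¹ P * cj m k s P X P' = s ^ k • (X * gp m s⁻¹ P') := by
  rw [cj, h.gp_rs hs fun p q c => by rw [← mul_assoc]; exact z p q (by omega), gp_mul_left]

theorem cont_rs : Continuous fun s => rs m k s P Y := by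
  unfold rs
  fun_prop

theorem cont_cj : Continuous fun s => cj m k s P X P' := cont_rs

theorem Lv.mono (h : Lv a P X P') (e : b ≤ a) : Lv b P X P' := fun p q c => h p q (by omega)

theorem Lv.mul (h : Lv a P X P') (h' : Lv b P' X' P'') (H : Ps m P') :
    Lv (a + b) P (X * X') P'' := fun p q c => by
  have : P p * (X * X') * P'' q = ∑ r ∈ range m, P p * X * P' r * (P' r * X' * P'' q) := by
    simp only [← mul_assoc, mul_assoc _ (P' _) (P' _), H.sq]
    rw [← sum_mul, ← sum_mul, ← mul_sum, H.sum, mul_one]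
  rw [this]
  refine sum_eq_zero fun r _ => ?_
  by_cases d : (p : ℤ) < r + a
  · rw [h p r d, zero_mul]
  · rw [h' r q (by omega), mul_zero]

theorem Lv.add (h : Lv a P X P') (h' : Lv a P X' P') : Lv a P (X + X') P' := fun p q c => by
  rw [mul_add, add_mul, h p q c, h' p q c, add_zero]

theorem Lv.smul (h : Lv a P X P') (c : ℂ) : Lv a P (c • X) P' := fun p q d => by
  rw [mul_smul_comm, smul_mul_assoc, h p q d, smul_zero]

theorem lv_zero : Lv a P 0 P' := fun _ _ _ => by simp

theorem Lv.sum {ι : Type*} (S : Finset ι) {f : ι → Matrix n n ℂ} (h : ∀ i, Lv a P (f i) P') :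
    Lv a P (∑ i ∈ S, f i) P' := fun p q c => by
  rw [mul_sum, sum_mul]
  exact sum_eq_zero fun i _ => h i p q c

theorem Ps.lv_one (h : Ps m P) : Lv 0 P 1 P := fun p q c => by
  rw [mul_one, h.ne p q (by omega)]

theorem Lv.nilp (h : Lv 1 P X P) (H : Ps m P) : IsNilpotent X := by
  have a : ∀ j : ℕ, Lv j P (X ^ j) P := fun j => by
    induction j with
    | zero => simpa using H.lv_one
    | succ j ih => rw [pow_succ]; exact_mod_cast ih.mul h H
  refine ⟨m, ?_⟩
  rw [← one_mul (X ^ m), ← mul_one (1 * X ^ m), ← H.sum, sum_mul, sum_mul]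
  refine sum_eq_zero fun p hp => ?_
  rw [mul_sum]
  exact sum_eq_zero fun q _ => a m p q (by have := mem_range.1 hp; omega)

theorem Ps.mul_rs (h : Ps m P) (p : ℕ) :
    P p * rs m k s P Y = ∑ q ∈ range m, s ^ (p + k - q) • (P p * Y q) := by
  rw [rs, mul_sum, sum_eq_single p (fun r _ e => ?_) fun e => ?_, mul_sum]
  · exact sum_congr rfl fun q _ => by rw [mul_smul_comm, ← mul_assoc, h.sq]
  · rw [mul_sum]
    exact sum_eq_zero fun q _ => by
      rw [mul_smul_comm, ← mul_assoc, h.ne p r e.symm, zero_mul, smul_zero]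
  · rw [h.zero (by simpa using e), zero_mul]

theorem Ps.ent (h : Ps m P) (h' : Ps m P') (p q : ℕ) :
    P p * cj m k s P X P' * P' q = s ^ (p + k - q) • (P p * X * P' q) := by
  rw [cj, h.mul_rs, sum_mul, sum_eq_single q (fun r _ e => ?_) fun e => ?_]
  · rw [smul_mul_assoc, mul_assoc, mul_assoc, h'.sq, mul_assoc]
  · rw [smul_mul_assoc, mul_assoc, mul_assoc, h'.ne r q e, mul_zero, mul_zero, smul_zero]
  · rw [h'.zero (by simpa using e), mul_zero]

theorem Lv.cj (z : Lv a P X P') (h : Ps m P) (h' : Ps m P') : Lv a P (cj m k s P X P') P' :=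
  fun p q c => by rw [h.ent h', z p q c, smul_zero]

theorem Lv.cj_sub (z : Lv 0 P X P') (h : Ps m P) (h' : Ps m P') :
    Lv 1 P (P275LM.cj m 0 s P X P' - X) P' := fun p q c => by
  rw [mul_sub, sub_mul, h.ent h', show p + 0 - q = 0 by omega, pow_zero, one_smul, sub_self]

theorem cj_mul (h : Ps m P) (h' : Ps m P') (z : Lv (-k) P X P') (z' : Lv (-k') P' X' P'') (s : ℂ) :
    cj m k s P X P' * cj m k' s P' X' P'' = cj m (k + k') s P (X * X') P'' := by
  refine ext0 (f := fun s => cj m k s P X P' * cj m k' s P' X' P'') (cont_cj.mul cont_cj) cont_cj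
    (fun s hs => h.cancel hs ?_) s
  rw [← mul_assoc, h.gp_cj hs z, smul_mul_assoc, mul_assoc, h'.gp_cj hs z', h.gp_cj hs
    ((z.mul z' h').mono (by push_cast; omega)), mul_smul_comm, smul_smul, pow_add, mul_assoc]

theorem Ps.cj_one (h : Ps m P) (s : ℂ) : cj m 0 s P 1 P = 1 :=
  ext0 cont_cj continuous_const (fun s hs => h.cancel hs (by
    rw [h.gp_cj hs (by simpa using h.lv_one), pow_zero, one_smul, one_mul, mul_one])) s

theorem det_cj (h : Ps m P) (h' : Ps m P') (z : Lv 0 P X P') (z' : Lv 0 P' X' P)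
    (e : X' * X = 1) (s : ℂ) : (cj m 0 s P X P').det = X.det := by
  have a := det_of_nilp (Q := X' * cj m 0 s P X P') (by
    rw [← e, ← mul_sub]
    exact Lv.nilp (by simpa using z'.mul (z.cj_sub h h') h) h')
  rw [det_mul] at a
  rw [← mul_one X.det, ← a, ← mul_assoc, mul_comm X.det, ← det_mul, e, det_one, one_mul]

/-- nested projectors -/
def nest (π : ℕ → Matrix n n ℂ) : ℕ → Matrix n n ℂ
  | 0 => 1
  | k + 1 => π (k + 1) * nest π k

/-- the grading defined by projectors onto the terms of a filtration -/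
def grd (π : ℕ → Matrix n n ℂ) (k : ℕ) : Matrix n n ℂ := nest π k - nest π (k + 1)

/-- `P` is a grading which splits the filtration `F` -/
structure Spt (m : ℕ) (P : ℕ → Matrix n n ℂ) (F : ℕ → Submodule ℂ (n → ℂ)) : Prop
    extends Ps m P where
  mem : ∀ q v, v ∈ F q ↔ ∀ p < q, P p *ᵥ v = 0

theorem spt_grd {π : ℕ → Matrix n n ℂ} {F : ℕ → Submodule ℂ (n → ℂ)} (hF : Antitone F)
    (h0 : F 0 = ⊤) (hm : F m = ⊥) (h1 : ∀ k v, π k *ᵥ v ∈ F k) (h2 : ∀ k, ∀ v ∈ F k, π k *ᵥ v = v) :
    Spt m (grd π) F := by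
  have a : ∀ k v, nest π k *ᵥ v ∈ F k := fun k v => by
    cases k with
    | zero => rw [h0]; trivial
    | succ k => rw [nest, ← mulVec_mulVec]; exact h1 _ _
  have b : ∀ k, ∀ v ∈ F k, nest π k *ᵥ v = v := by
    intro k
    induction k with
    | zero => exact fun v _ => one_mulVec v
    | succ k ih =>
      intro v hv
      rw [nest, ← mulVec_mulVec, ih v (hF k.le_succ hv), h2 _ v hv]
  have ex : ∀ {X Y : Matrix n n ℂ}, (∀ v, X *ᵥ v = Y *ᵥ v) → X = Y := fun e =>
    toLin'.injective (LinearMap.ext e)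
  have c : ∀ p q, p ≤ q → nest π p * nest π q = nest π q := fun p q e => ex fun v => by
    rw [← mulVec_mulVec, b p _ (hF e (a q v))]
  have d : ∀ p q, p ≤ q → nest π q * nest π p = nest π q := fun p q e => by
    induction q, e using Nat.le_induction with
    | base => exact c p p le_rfl
    | succ q _ ih => rw [nest, mul_assoc, ih]
  have t : ∀ q, ∑ p ∈ range q, grd π p = 1 - nest π q := fun q => sum_range_sub' (nest π) q
  refine ⟨⟨fun p => ?_, fun p q e => ?_, ?_⟩, fun q v => ⟨fun hv p e => ?_, fun e => ?_⟩⟩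
  · rw [grd, sub_mul, mul_sub, mul_sub, c p p le_rfl, c p _ p.le_succ, d p _ p.le_succ,
      c _ _ le_rfl, sub_self, sub_zero]
  · rcases lt_or_gt_of_ne e with e | e
    · rw [grd, grd, sub_mul, mul_sub, mul_sub, c p q e.le, c p _ (by omega), c _ q e,
        c _ _ (by omega), sub_self]
    · rw [grd, grd, sub_mul, mul_sub, mul_sub, d q p e.le, d _ p e, d q _ (by omega),
        d _ _ (by omega), sub_self, sub_self, sub_self]
  · rw [t, ex (X := nest π m) (Y := 0) fun v => by simpa [hm] using a m v, sub_zero]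
  · rw [grd, sub_mulVec, b p v (hF e.le hv), b _ v (hF e hv), sub_self]
  · have := congrArg (· *ᵥ v) (t q)
    simp only [sum_mulVec, sub_mulVec, one_mulVec] at this
    rw [sum_eq_zero fun p hp => e p (mem_range.1 hp), eq_comm, sub_eq_zero] at this
    rw [this]
    exact a q v

variable {F F' : ℕ → Submodule ℂ (n → ℂ)}

theorem Spt.rg (h : Spt m P F) {p q : ℕ} (e : q ≤ p) (v : n → ℂ) : P p *ᵥ v ∈ F q :=
  (h.mem q _).2 fun r c => by rw [mulVec_mulVec, h.ne r p (by omega), zero_mulVec]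

theorem Spt.anti (h : Spt m P F) : Antitone F := fun p q e v hv =>
  (h.mem p v).2 fun r c => (h.mem q v).1 hv r (by omega)

theorem Spt.lv (h : Spt m P F) (h' : Spt m P' F') (k : ℕ) (e : ∀ q, ∀ v ∈ F' q, X *ᵥ v ∈ F (q - k)) :
    Lv (-k) P X P' := fun p q c => toLin'.injective (LinearMap.ext fun v => by
  rw [toLin'_apply, map_zero, ← mulVec_mulVec, ← mulVec_mulVec]
  exact (h.mem _ _).1 (e q _ (h'.rg le_rfl v)) p (by omega))

theorem Lv.mem (z : Lv a P X P') (h : Spt m P F) (h' : Spt m P' F') {p q : ℕ}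
    (c : (p : ℤ) ≤ q + a) {v : n → ℂ} (hv : v ∈ F' q) : X *ᵥ v ∈ F p := by
  refine (h.mem _ _).2 fun r d => ?_
  rw [← one_mulVec v, ← h'.sum, sum_mulVec, mulVec_sum, mulVec_sum]
  refine sum_eq_zero fun u _ => ?_
  by_cases e : u < q
  · rw [(h'.mem q v).1 hv u e, mulVec_zero, mulVec_zero]
  · rw [mulVec_mulVec, mulVec_mulVec, z r u (by omega), zero_mulVec]

/-- the coordinate grading -/
def cg (d : n → ℕ) (q : ℕ) : Matrix n n ℂ := diagonal fun k => if d k = q then 1 else 0

theorem ps_cg {d : n → ℕ} (h : ∀ k, d k < m) : Ps m (cg d) := by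
  refine ⟨fun p => ?_, fun p q e => ?_, ?_⟩
  · rw [cg, diagonal_mul_diagonal]
    congr 1
    funext k
    split_ifs <;> simp
  · rw [cg, cg, diagonal_mul_diagonal, ← diagonal_zero]
    congr 1
    funext k
    split_ifs with a b
    · exact absurd (a.symm.trans b) e
    all_goals simp
  · ext i j
    simp only [cg, Matrix.sum_apply, diagonal_apply, one_apply]
    split_ifs with a
    · simp [h i]
    · simp

/-- **Bruhat**: a frame can be adapted to a filtration by an upper triangular matrix -/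
theorem Ps.bruhat [LinearOrder n] (h : Ps m P) {σ : Matrix n n ℂ} (hσ : σ.det ≠ 0) :
    ∃ (u : Matrix n n ℂ) (d : n → ℕ), u.BlockTriangular id ∧ u.det = 1 ∧ (∀ k, d k < m) ∧
      Lv 0 P (σ * u) (cg d) ∧ Lv 0 (cg d) (σ * u)⁻¹ P := by
  classical
  let Q : n → ℕ → Prop := fun k q => ∃ b : n → ℂ, b k = 1 ∧ (∀ j, k < j → b j = 0) ∧
    ∀ p < q, P p *ᵥ (σ *ᵥ b) = 0
  have q0 : ∀ k, Q k 0 := fun k => ⟨Pi.single k 1, Pi.single_eq_same _ _,
    fun j e => Pi.single_eq_of_ne e.ne' _, fun _ e => absurd e (Nat.not_lt_zero _)⟩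
  have qm : ∀ k, ¬ Q k m := by
    rintro k ⟨b, b1, -, b3⟩
    have : σ *ᵥ b = 0 := by
      rw [← one_mulVec (σ *ᵥ b), ← h.sum, sum_mulVec]
      exact sum_eq_zero fun p hp => b3 p (mem_range.1 hp)
    rw [eq_zero_of_mulVec_eq_zero hσ this] at b1
    exact zero_ne_one b1
  let d : n → ℕ := fun k => Nat.findGreatest (Q k) m
  have d1 : ∀ k, Q k (d k) := fun k => Nat.findGreatest_spec (Nat.zero_le m) (q0 k)
  have d2 : ∀ k, d k < m := fun k => lt_of_le_of_ne (Nat.findGreatest_le m)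
    fun e => qm k (e ▸ d1 k)
  have d3 : ∀ k, ¬ Q k (d k + 1) := fun k =>
    Nat.findGreatest_is_greatest (Nat.lt_succ_self _) (d2 k)
  choose b b1 b2 b3 using d1
  let u : Matrix n n ℂ := Matrix.of fun j k => b k j
  have ut : u.BlockTriangular id := fun j k e => b2 k j e
  have ud : u.det = 1 := by
    rw [det_of_upperTriangular ut]
    exact prod_eq_one fun k _ => b1 k
  have mv : ∀ (p : ℕ) (c : n → ℂ), P p *ᵥ (σ *ᵥ (u *ᵥ c)) = ∑ k, c k • P p *ᵥ (σ *ᵥ b k) := by
    intro p c
    have : u *ᵥ c = ∑ k, c k • b k := by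
      ext j
      simp [u, mulVec, dotProduct, mul_comm]
    simp only [this, mulVec_sum, mulVec_smul]
  have key : ∀ q (c : n → ℂ), (∀ p < q, P p *ᵥ (σ *ᵥ (u *ᵥ c)) = 0) → ∀ k, d k < q → c k = 0 := by
    intro q c hc
    by_contra ne
    push Not at ne
    obtain ⟨k₁, k1, hk1⟩ := (univ.filter fun k => c k ≠ 0).exists_min_image d
      (let ⟨k, _, e⟩ := ne; ⟨k, by simpa using e⟩)
    obtain ⟨k₀, k0, hk0⟩ := (univ.filter fun k => c k ≠ 0 ∧ d k = d k₁).exists_max_image id
      ⟨k₁, by simpa using k1⟩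
    simp only [mem_filter, mem_univ, true_and, id] at k1 hk1 k0 hk0
    have lt : d k₁ < q := let ⟨k, a, e⟩ := ne; (hk1 k e).trans_lt a
    let c' : n → ℂ := fun k => if d k = d k₁ then (c k₀)⁻¹ * c k else 0
    have z : ∀ k, k₀ < k → c' k = 0 := fun k e => by
      by_cases a : d k = d k₁
      · by_cases a' : c k = 0
        · simp [c', a']
        · exact absurd (hk0 k ⟨a', a⟩) (not_le.2 e)
      · simp [c', a]
    refine d3 k₀ ⟨u *ᵥ c', ?_, fun j e => ?_, fun p e => ?_⟩
    · rw [mulVec, dotProduct, sum_eq_single k₀ (fun k _ a => ?_) (by simp)]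
      · simp [u, b1, c', k0.2, k0.1]
      · rcases lt_or_gt_of_ne a with a | a
        · rw [show u k₀ k = 0 from b2 k k₀ a, zero_mul]
        · rw [z k a, mul_zero]
    · refine sum_eq_zero fun k _ => ?_
      rcases le_or_gt k k₀ with a | a
      · exact mul_eq_zero_of_left (b2 k j (a.trans_lt e)) _
      · exact mul_eq_zero_of_right _ (z k a)
    · have := congrArg ((c k₀)⁻¹ • ·) (hc p (by omega))
      simp only [mv, smul_sum, smul_zero, smul_smul] at this
      rw [mv, ← this]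
      refine sum_congr rfl fun k _ => ?_
      by_cases a : d k = d k₁
      · simp only [c', if_pos a]
      · by_cases a' : c k = 0
        · simp [c', a']
        · rw [b3 k p (by have := hk1 k a'; omega), smul_zero, smul_zero]
  have xd : IsUnit (σ * u).det := by rw [det_mul, ud, mul_one]; exact hσ.isUnit
  refine ⟨u, d, ut, ud, d2, fun p q e => toLin'.injective (LinearMap.ext fun v => ?_),
    fun p q e => toLin'.injective (LinearMap.ext fun v => ?_)⟩
  · rw [toLin'_apply, map_zero, ← mulVec_mulVec, ← mulVec_mulVec, ← mulVec_mulVec, mv]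
    refine sum_eq_zero fun k _ => ?_
    by_cases a : d k = q
    · rw [b3 k p (by omega), smul_zero]
    · simp [cg, mulVec_diagonal, a]
  · rw [toLin'_apply, map_zero, ← mulVec_mulVec, ← mulVec_mulVec]
    ext k
    rw [cg, mulVec_diagonal]
    split_ifs with a
    · refine mul_eq_zero_of_right _ (key q _ (fun r c => ?_) k (by omega))
      rw [mulVec_mulVec _ σ, mulVec_mulVec _ (σ * u), mul_nonsing_inv _ xd, one_mulVec,
        mulVec_mulVec, h.ne r q c.ne, zero_mulVec]
    · simp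

theorem gp_cg [LinearOrder n] (d : n → ℕ) : (gp m s (cg d)).BlockTriangular id := fun i j e => by
  have : i ≠ j := ne_of_gt e
  simp [gp, cg, Matrix.sum_apply, diagonal_apply_ne _ this]

end Vale.Agent.P275LM
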