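import Mathlib

/-! # P275: transverse filtrations in a lattice with a supermodular degree -/

set_option linter.all false

namespace Vale.Agent.P275LM

open Finset

variable {L : Type*} [Lattice L] [BoundedOrder L]

/-- a lattice of subobjects with a degree `δ` and a relation `T a b` (the operator maps `a` to `b`) -/
structure Dat (δ : L → ℤ) (T : L → L → Prop) : Prop where
  bot : δ ⊥ = 0
  top : δ ⊤ = 0
  sup : ∀ a b, δ a + δ b ≤ δ (a ⊔ b) + δ (a ⊓ b)
  inf_T : ∀ a b a' b', T a b → T a' b' → T (a ⊓ a') (b ⊓ b')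
  sup_T : ∀ a b a' b', T a b → T a' b' → T (a ⊔ a') (b ⊔ b')
  bot_T : T ⊥ ⊥
  top_T : T ⊤ ⊤

/-- a decreasing transverse filtration which is trivial outside `[-N, N]` -/
structure Tv (T : L → L → Prop) (N : ℕ) (F : ℤ → L) : Prop where
  anti : Antitone F
  lo : ∀ p, p ≤ -(N : ℤ) → F p = ⊤
  hi : ∀ p, (N : ℤ) ≤ p → F p = ⊥
  tr : ∀ p, T (F p) (F (p - 1))

/-- an increasing filtration lowered by the operator which is trivial outside `[-N, N]` -/
structure Lw (T : L → L → Prop) (N : ℕ) (G : ℤ → L) : Prop where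
  mono : Monotone G
  lo : ∀ p, p ≤ -(N : ℤ) → G p = ⊥
  hi : ∀ p, (N : ℤ) ≤ p → G p = ⊤
  tr : ∀ p, T (G p) (G (p - 1))

/-- the weight of a filtration -/
noncomputable def nu (δ : L → ℤ) (F : ℤ → L) : ℤ := ∑ᶠ p, δ (F p)

theorem Tv.mono {T : L → L → Prop} {N M : ℕ} {F : ℤ → L} (h : Tv T N F) (hM : N ≤ M) :
    Tv T M F :=
  ⟨h.anti, fun p hp => h.lo p (by omega), fun p hp => h.hi p (by omega), h.tr⟩

theorem Lw.mono' {T : L → L → Prop} {N M : ℕ} {G : ℤ → L} (h : Lw T N G) (hM : N ≤ M) :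
    Lw T M G :=
  ⟨h.mono, fun p hp => h.lo p (by omega), fun p hp => h.hi p (by omega), h.tr⟩

theorem nu_eq {δ : L → ℤ} {F : ℤ → L} {a b : ℤ} (h : ∀ p, p < a ∨ b < p → δ (F p) = 0) :
    nu δ F = ∑ p ∈ Icc a b, δ (F p) := by
  unfold nu
  apply finsum_eq_sum_of_support_subset
  intro p hp
  simp only [Function.mem_support] at hp
  simp only [coe_Icc, Set.mem_Icc]
  by_contra hc
  exact hp (h p (by omega))

theorem Tv.nu_eq {δ : L → ℤ} {T : L → L → Prop} (D : Dat δ T) {N : ℕ} {F : ℤ → L}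
    (h : Tv T N F) {a b : ℤ} (ha : a ≤ -(N : ℤ)) (hb : (N : ℤ) ≤ b) :
    nu δ F = ∑ p ∈ Icc a b, δ (F p) := by
  apply P275LM.nu_eq
  rintro p (hp | hp)
  · rw [h.lo p (by omega), D.top]
  · rw [h.hi p (by omega), D.bot]

theorem Lw.nu_eq {δ : L → ℤ} {T : L → L → Prop} (D : Dat δ T) {N : ℕ} {G : ℤ → L}
    (h : Lw T N G) {a b : ℤ} (ha : a ≤ -(N : ℤ)) (hb : (N : ℤ) ≤ b) :
    nu δ G = ∑ p ∈ Icc a b, δ (G p) := by
  apply P275LM.nu_eq
  rintro p (hp | hp)
  · rw [h.lo p (by omega), D.bot]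
  · rw [h.hi p (by omega), D.top]

theorem nu_shift (δ : L → ℤ) (F : ℤ → L) (k : ℤ) : nu δ (fun p => F (p + k)) = nu δ F := by
  unfold nu
  exact finsum_comp_equiv (Equiv.addRight k) (f := fun p => δ (F p))

/-- telescoping over an integer interval -/
theorem sum_tele (f : ℤ → ℤ) (a : ℤ) (m : ℕ) :
    ∑ q ∈ Icc (a + 1) (a + m), (f q - f (q - 1)) = f (a + m) - f a := by
  induction m with
  | zero => simp
  | succ m ih =>
    have : Icc (a + 1) (a + ((m + 1 : ℕ) : ℤ)) = insert (a + m + 1) (Icc (a + 1) (a + m)) := by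
      ext q; simp only [mem_Icc, mem_insert]; push_cast; omega
    rw [this, sum_insert (by simp), ih]
    have e1 : a + ((m + 1 : ℕ) : ℤ) = a + m + 1 := by push_cast; ring
    have e2 : a + m + 1 - 1 = a + m := by ring
    rw [e1, e2]; ring

end Vale.Agent.P275LM
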