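import Vale.Agent.P275LM.Lat

/-! # P275: local maxima of the weight are global maxima; opposite filtrations -/

set_option linter.all false

namespace Vale.Agent.P275LM

open Finset

variable {L : Type*} [Lattice L] [BoundedOrder L] {δ : L → ℤ} {T : L → L → Prop}

/-- the weight has finite support -/
def Fs (δ : L → ℤ) (F : ℤ → L) : Prop := ∃ M : ℕ, ∀ p : ℤ, p < -(M : ℤ) ∨ (M : ℤ) < p → δ (F p) = 0

theorem Fs.fin {F : ℤ → L} (h : Fs δ F) : (Function.support fun p => δ (F p)).Finite := by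
  obtain ⟨M, hM⟩ := h
  refine (Set.finite_Icc (-(M : ℤ)) M).subset fun p hp => ?_
  by_contra hc
  simp only [Set.mem_Icc] at hc
  exact hp (hM p (by omega))

theorem fs_of (D : Dat δ T) {F : ℤ → L} (M : ℕ)
    (h : ∀ p : ℤ, p < -(M : ℤ) ∨ (M : ℤ) < p → F p = ⊥ ∨ F p = ⊤) : Fs δ F :=
  ⟨M, fun p hp => by rcases h p hp with e | e <;> rw [e] <;> simp [D.bot, D.top]⟩

theorem Tv.fs (D : Dat δ T) {N : ℕ} {F : ℤ → L} (h : Tv T N F) : Fs δ F :=
  fs_of D N fun p hp => hp.elim (fun hp => Or.inr (h.lo p (by omega)))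
    fun hp => Or.inl (h.hi p (by omega))

theorem Lw.fs (D : Dat δ T) {N : ℕ} {F : ℤ → L} (h : Lw T N F) : Fs δ F :=
  fs_of D N fun p hp => hp.elim (fun hp => Or.inl (h.lo p (by omega)))
    fun hp => Or.inr (h.hi p (by omega))

theorem Fs.shift {F : ℤ → L} (h : Fs δ F) (k : ℤ) : Fs δ fun p => F (p + k) := by
  obtain ⟨M, hM⟩ := h
  refine ⟨M + k.natAbs, fun p hp => hM _ ?_⟩
  push_cast at hp
  have := le_abs_self k
  have := neg_abs_le k
  omega

/-- termwise inequality `A + B ≤ C + E` for four families -/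
theorem nu_le4 {A B C E : ℤ → L} (hA : Fs δ A) (hB : Fs δ B) (hC : Fs δ C) (hE : Fs δ E)
    (h : ∀ p, δ (A p) + δ (B p) ≤ δ (C p) + δ (E p)) :
    nu δ A + nu δ B ≤ nu δ C + nu δ E ∧
      (nu δ A + nu δ B = nu δ C + nu δ E → ∀ p, δ (A p) + δ (B p) = δ (C p) + δ (E p)) := by
  obtain ⟨a, ha⟩ := hA
  obtain ⟨b, hb⟩ := hB
  obtain ⟨c, hc⟩ := hC
  obtain ⟨e, he⟩ := hE
  set M : ℤ := a + b + c + e with hM
  have eA : nu δ A = ∑ p ∈ Icc (-M) M, δ (A p) := nu_eq fun p hp => ha p (by omega)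
  have eB : nu δ B = ∑ p ∈ Icc (-M) M, δ (B p) := nu_eq fun p hp => hb p (by omega)
  have eC : nu δ C = ∑ p ∈ Icc (-M) M, δ (C p) := nu_eq fun p hp => hc p (by omega)
  have eE : nu δ E = ∑ p ∈ Icc (-M) M, δ (E p) := nu_eq fun p hp => he p (by omega)
  rw [eA, eB, eC, eE, ← sum_add_distrib, ← sum_add_distrib]
  refine ⟨sum_le_sum fun p _ => h p, fun hh p => ?_⟩
  by_cases hp : p ∈ Icc (-M) M
  · exact (sum_eq_sum_iff_of_le fun p _ => h p).1 hh p hp
  · simp only [mem_Icc] at hp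
    rw [ha p (by omega), hb p (by omega), hc p (by omega), he p (by omega)]

theorem nu_bot (D : Dat δ T) : nu δ (fun _ => (⊥ : L)) = 0 := by simp [nu, D.bot]

theorem fs_bot (D : Dat δ T) : Fs δ (fun _ => (⊥ : L)) := ⟨0, fun _ _ => D.bot⟩

theorem nu_add {A B C : ℤ → L} (D : Dat δ T) (hA : Fs δ A) (hB : Fs δ B) (hC : Fs δ C)
    (h : ∀ p, δ (A p) + δ (B p) = δ (C p)) : nu δ A + nu δ B = nu δ C := by
  have h1 := (nu_le4 hA hB hC (fs_bot D) fun p => by rw [h p, D.bot, add_zero]).1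
  have h2 := (nu_le4 hC (fs_bot D) hA hB fun p => by rw [h p, D.bot, add_zero]).1
  rw [nu_bot D] at h1 h2
  omega

theorem mono_int {b : ℤ → ℤ} (h : ∀ k, b k ≤ b (k + 1)) : Monotone b :=
  monotone_int_of_le_succ h

/-- a decreasing filtration is a strict local maximum of the weight -/
def LM (δ : L → ℤ) (T : L → L → Prop) (F : ℤ → L) : Prop :=
  ∀ H : ℤ → L, (∀ p, F p ≤ H p) → (∀ p, H p ≤ F (p - 1)) → (∀ p, T (H p) (H (p - 1))) →
    nu δ H ≤ nu δ F ∧ (nu δ H = nu δ F → (∀ p, H p = F p) ∨ ∀ p, H p = F (p - 1))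

/-- an increasing filtration is a strict local maximum of the weight -/
def St (δ : L → ℤ) (T : L → L → Prop) (G : ℤ → L) : Prop :=
  ∀ H : ℤ → L, (∀ p, G (p - 1) ≤ H p) → (∀ p, H p ≤ G p) → (∀ p, T (H p) (H (p - 1))) →
    nu δ H ≤ nu δ G ∧ (nu δ H = nu δ G → (∀ p, H p = G p) ∨ ∀ p, H p = G (p - 1))

theorem Tv.sand {N : ℕ} {F H : ℤ → L} (h : Tv T N F) (h1 : ∀ p, F p ≤ H p)
    (h2 : ∀ p, H p ≤ F (p - 1)) (h3 : ∀ p, T (H p) (H (p - 1))) : Tv T (N + 1) H := by
  refine ⟨antitone_int_of_succ_le fun p => ?_, fun p hp => ?_, fun p hp => ?_, h3⟩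
  · have := h2 (p + 1)
    rw [add_sub_cancel_right] at this
    exact this.trans (h1 p)
  · exact top_le_iff.1 (h.lo p (by push_cast at hp; omega) ▸ h1 p)
  · exact le_bot_iff.1 (h.hi (p - 1) (by push_cast at hp; omega) ▸ h2 p)

theorem Lw.sand {N : ℕ} {G H : ℤ → L} (h : Lw T N G) (h1 : ∀ p, G (p - 1) ≤ H p)
    (h2 : ∀ p, H p ≤ G p) (h3 : ∀ p, T (H p) (H (p - 1))) : Lw T (N + 1) H := by
  refine ⟨monotone_int_of_le_succ fun p => ?_, fun p hp => ?_, fun p hp => ?_, h3⟩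
  · have := h1 (p + 1)
    rw [add_sub_cancel_right] at this
    exact (h2 p).trans this
  · exact le_bot_iff.1 (h.lo p (by push_cast at hp; omega) ▸ h2 p)
  · exact top_le_iff.1 (h.hi (p - 1) (by push_cast at hp; omega) ▸ h1 p)

/-- **(M)** a transverse filtration against a stable lowered filtration -/
theorem opp (D : Dat δ T) {N : ℕ} {F G : ℤ → L} (hF : Tv T N F) (hG : Lw T N G)
    (hS : St δ T G) :
    nu δ F + nu δ G ≤ 0 ∧ (nu δ F + nu δ G = 0 → ∃ k : ℤ, ∀ q,
      (F (q + k) ⊓ G q) ⊔ G (q - 1) = G q ∧ F (q + k + 1) ⊓ G q = ⊥ ∧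
        δ (F (q + k) ⊓ G q) + δ (G (q - 1)) = δ (G q)) := by
  set A : ℤ → ℤ → L := fun k q => F (q + k) ⊓ G q with hA
  set H : ℤ → ℤ → L := fun k q => A k q ⊔ G (q - 1) with hH
  have g1 : ∀ q, G (q - 1) ≤ G q := fun q => hG.mono (by omega)
  have fA : ∀ k, Fs δ (A k) := fun k => fs_of D (N + k.natAbs) fun p hp => by
    push_cast at hp
    have := le_abs_self k
    have := neg_abs_le k
    rcases hp with hp | hp
    · left; simp only [hA]; rw [hG.lo p (by omega), inf_bot_eq]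
    · left; simp only [hA]; rw [hF.hi _ (by omega), bot_inf_eq]
  have H1 : ∀ k p, G (p - 1) ≤ H k p := fun k p => le_sup_right
  have H2 : ∀ k p, H k p ≤ G p := fun k p => sup_le inf_le_right (g1 p)
  have H3 : ∀ k p, T (H k p) (H k (p - 1)) := fun k p => by
    have := D.sup_T _ _ _ _ (D.inf_T _ _ _ _ (hF.tr (p + k)) (hG.tr p)) (hG.tr (p - 1))
    simp only [hH, hA]
    rw [show p - 1 + k = p + k - 1 by ring]
    exact this
  have fH : ∀ k, Fs δ (H k) := fun k => (hG.sand (H1 k) (H2 k) (H3 k)).fs D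
  have key : ∀ k, nu δ (A k) + nu δ G ≤ nu δ (H k) + nu δ (A (k + 1)) ∧
      (nu δ (A k) + nu δ G = nu δ (H k) + nu δ (A (k + 1)) → ∀ q,
        δ (A k q) + δ (G (q - 1)) = δ (H k q) + δ (A (k + 1) (q - 1))) := fun k => by
    have := nu_le4 (fA k) ((hG.fs D).shift (-1)) (fH k) ((fA (k + 1)).shift (-1)) fun q => by
      have h := D.sup (A k q) (G (q - 1))
      have e : A k q ⊓ G (q - 1) = A (k + 1) (q + -1) := by
        simp only [hA]
        rw [inf_assoc, inf_eq_right.2 (g1 q), show q + -1 + (k + 1) = q + k by ring,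
          ← sub_eq_add_neg]
      rw [e] at h
      simpa only [hH, sub_eq_add_neg] using h
    rw [nu_shift, nu_shift] at this
    simpa only [sub_eq_add_neg] using this
  have mb : Monotone fun k => nu δ (A k) := mono_int fun k => by
    have := (key k).1
    have := (hS _ (H1 k) (H2 k) (H3 k)).1
    omega
  have big : ∀ k : ℤ, 2 * (N : ℤ) ≤ k → ∀ q, A k q = ⊥ := fun k hk q => by
    simp only [hA]
    by_cases hq : q ≤ -(N : ℤ)
    · rw [hG.lo q hq, inf_bot_eq]
    · rw [hF.hi _ (by omega), bot_inf_eq]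
  have e0 : nu δ (A (2 * N + 1)) = 0 := by
    rw [show A (2 * N + 1) = fun _ => ⊥ from funext (big _ (by omega)), nu_bot D]
  have e1 : nu δ F + nu δ G = nu δ (A (-(2 * N))) := by
    rw [← nu_shift δ F (-(2 * N))]
    refine nu_add D ((hF.fs D).shift _) (hG.fs D) (fA _) fun q => ?_
    simp only [hA]
    by_cases hq : q ≤ (N : ℤ)
    · rw [hF.lo _ (by omega), top_inf_eq, D.top, zero_add]
    · rw [hG.hi _ (by omega), inf_top_eq, D.top, add_zero]
  have le0 : nu δ (A (-(2 * N))) ≤ nu δ (A (2 * N + 1)) := mb (by omega)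
  refine ⟨by omega, fun h0 => ?_⟩
  have cst : ∀ k : ℤ, -(2 * (N : ℤ)) ≤ k → k ≤ 2 * N + 1 → nu δ (A k) = 0 := fun k h1 h2 => by
    have a1 : nu δ (A (-(2 * N))) ≤ nu δ (A k) := mb h1
    have a2 : nu δ (A k) ≤ nu δ (A (2 * N + 1)) := mb h2
    omega
  have eqH : ∀ k : ℤ, -(2 * (N : ℤ)) ≤ k → k ≤ 2 * N → nu δ (H k) = nu δ G := fun k h1 h2 => by
    have := (key k).1
    have := (hS _ (H1 k) (H2 k) (H3 k)).1
    have := cst k h1 (by omega)
    have := cst (k + 1) (by omega) (by omega)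
    omega
  have P2 : ∀ q, H (2 * N) q = G (q - 1) := fun q => by
    simp only [hH]; rw [big _ le_rfl, bot_sup_eq]
  obtain ⟨k1, ⟨hk1, hP⟩, hmin⟩ := Int.exists_least_of_bdd
    (P := fun k => -(2 * (N : ℤ)) < k ∧ ∀ q, H k q = G (q - 1)) ⟨-(2 * N), fun z hz => hz.1.le⟩
    (by
      by_cases hN : N = 0
      · refine ⟨1, by omega, fun q => ?_⟩
        simp only [hH]; rw [big _ (by omega), bot_sup_eq]
      · exact ⟨2 * N, by omega, P2⟩)
  have hb : ∀ q, A k1 q = ⊥ := by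
    have st : ∀ q, A k1 q ≤ A k1 (q - 1) := fun q =>
      le_inf (inf_le_left.trans (hF.anti (by omega))) (by rw [← hP q]; exact le_sup_left)
    have mo : Antitone (A k1) := antitone_int_of_succ_le fun q => by
      simpa using st (q + 1)
    intro q
    refine le_bot_iff.1 ((mo (min_le_left q (-(N : ℤ)))).trans (inf_le_right.trans ?_))
    rw [hG.lo _ (min_le_right _ _)]
  have hk2 : k1 ≤ 2 * N + 1 := hmin _ ⟨by omega, fun q => by
    simp only [hH]; rw [big _ (by omega), bot_sup_eq]⟩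
  have hfull : ∀ q, H (k1 - 1) q = G q := by
    by_cases hk : k1 - 1 = -(2 * (N : ℤ))
    · intro q
      simp only [hH, hA]
      by_cases hq : q ≤ (N : ℤ)
      · rw [hF.lo _ (by omega), top_inf_eq, sup_eq_left.2 (g1 q)]
      · rw [hG.hi (q - 1) (by omega), hG.hi q (by omega), sup_top_eq]
    · rcases (hS _ (H1 _) (H2 _) (H3 _)).2 (eqH (k1 - 1) (by omega) (by omega)) with h | h
      · exact h
      · have := hmin (k1 - 1) ⟨by omega, h⟩
        omega
  refine ⟨k1 - 1, fun q => ⟨hfull q, ?_, ?_⟩⟩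
  · rw [show q + (k1 - 1) + 1 = q + k1 by ring]; exact hb q
  · have := (key (k1 - 1)).2 (by
      rw [eqH (k1 - 1) (by omega) (by omega), cst (k1 - 1) (by omega) (by omega),
        cst (k1 - 1 + 1) (by omega) (by omega)]; ring) q
    rw [hfull q, sub_add_cancel, hb, D.bot, add_zero] at this
    exact this

/-- a strict local maximum is the global maximum, unique up to a shift -/
theorem glob (D : Dat δ T) {N : ℕ} {F F' : ℤ → L} (hF : Tv T N F) (hF' : Tv T N F')
    (hS : LM δ T F) :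
    nu δ F' ≤ nu δ F ∧ (nu δ F' = nu δ F → ∃ k : ℤ, ∀ p, F' (p + k) = F p) := by
  set A : ℤ → ℤ → L := fun k p => F' (p + k) ⊓ F p with hA
  set H : ℤ → ℤ → L := fun k p => A (k + 1) (p - 1) ⊔ F p with hH
  have g1 : ∀ q, F q ≤ F (q - 1) := fun q => hF.anti (by omega)
  have fA : ∀ k, Fs δ (A k) := fun k => fs_of D (N + k.natAbs) fun p hp => by
    push_cast at hp
    have := le_abs_self k
    have := neg_abs_le k
    rcases hp with hp | hp
    · right; simp only [hA]; rw [hF.lo p (by omega), hF'.lo _ (by omega), inf_top_eq]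
    · left; simp only [hA]; rw [hF.hi p (by omega), inf_bot_eq]
  have H1 : ∀ k p, F p ≤ H k p := fun k p => le_sup_right
  have H2 : ∀ k p, H k p ≤ F (p - 1) := fun k p => sup_le inf_le_right (g1 p)
  have H3 : ∀ k p, T (H k p) (H k (p - 1)) := fun k p => by
    have := D.sup_T _ _ _ _ (D.inf_T _ _ _ _ (hF'.tr (p - 1 + (k + 1))) (hF.tr (p - 1))) (hF.tr p)
    simp only [hH, hA]
    rw [show p - 1 - 1 + (k + 1) = p - 1 + (k + 1) - 1 by ring]
    exact this
  have fH : ∀ k, Fs δ (H k) := fun k => (hF.sand (H1 k) (H2 k) (H3 k)).fs D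
  have key : ∀ k, nu δ (A (k + 1)) + nu δ F ≤ nu δ (H k) + nu δ (A k) := fun k => by
    have := (nu_le4 ((fA (k + 1)).shift (-1)) (hF.fs D) (fH k) (fA k) fun q => by
      have h := D.sup (A (k + 1) (q - 1)) (F q)
      have e : A (k + 1) (q - 1) ⊓ F q = A k q := by
        simp only [hA]
        rw [inf_assoc, inf_eq_right.2 (g1 q), show q - 1 + (k + 1) = q + k by ring]
      rw [e] at h
      simpa only [hH, sub_eq_add_neg] using h).1
    rw [nu_shift] at this
    exact this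
  have mb : Antitone fun k => nu δ (A k) := antitone_int_of_succ_le fun k => by
    have := key k
    have := (hS _ (H1 k) (H2 k) (H3 k)).1
    omega
  have big : ∀ k : ℤ, 2 * (N : ℤ) ≤ k → ∀ q, A k q = F' (q + k) := fun k hk q => by
    simp only [hA]
    by_cases hq : q ≤ -(N : ℤ)
    · rw [hF.lo q hq, inf_top_eq]
    · rw [hF'.hi _ (by omega), bot_inf_eq]
  have small : ∀ k : ℤ, k ≤ -(2 * (N : ℤ)) → ∀ q, A k q = F q := fun k hk q => by
    simp only [hA]
    by_cases hq : q ≤ (N : ℤ)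
    · rw [hF'.lo _ (by omega), top_inf_eq]
    · rw [hF.hi _ (by omega), inf_bot_eq]
  have e0 : nu δ (A (2 * N + 1)) = nu δ F' := by
    rw [show A (2 * N + 1) = fun q => F' (q + (2 * N + 1)) from funext (big _ (by omega)),
      nu_shift]
  have e1 : nu δ (A (-(2 * N) - 1)) = nu δ F := by
    rw [show A (-(2 * N) - 1) = F from funext (small _ (by omega))]
  have le0 : nu δ (A (2 * N + 1)) ≤ nu δ (A (-(2 * N) - 1)) := mb (by omega)
  refine ⟨by omega, fun h0 => ?_⟩
  have cst : ∀ k : ℤ, -(2 * (N : ℤ)) - 1 ≤ k → k ≤ 2 * N + 1 → nu δ (A k) = nu δ F :=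
    fun k h1 h2 => by
      have a1 : nu δ (A k) ≤ nu δ (A (-(2 * N) - 1)) := mb h1
      have a2 : nu δ (A (2 * N + 1)) ≤ nu δ (A k) := mb h2
      omega
  have eqH : ∀ k : ℤ, -(2 * (N : ℤ)) - 1 ≤ k → k ≤ 2 * N → nu δ (H k) = nu δ F :=
    fun k h1 h2 => by
      have := key k
      have := (hS _ (H1 k) (H2 k) (H3 k)).1
      have := cst k h1 (by omega)
      have := cst (k + 1) (by omega) (by omega)
      omega
  have P2 : ∀ q, H (2 * N) q = F q := fun q => by
    simp only [hH, hA]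
    by_cases hq : q ≤ -(N : ℤ)
    · rw [hF.lo q hq, sup_top_eq]
    · rw [hF'.hi _ (by omega), bot_inf_eq, bot_sup_eq]
  obtain ⟨k1, ⟨hk1, hP⟩, hmin⟩ := Int.exists_least_of_bdd
    (P := fun k => -(2 * (N : ℤ)) - 1 < k ∧ ∀ q, H k q = F q)
    ⟨-(2 * N) - 1, fun z hz => hz.1.le⟩ ⟨2 * N, by omega, P2⟩
  have hk2 : k1 ≤ 2 * N := hmin _ ⟨by omega, P2⟩
  have hfull : ∀ q, H (k1 - 1) q = F (q - 1) := by
    by_cases hk : k1 - 1 = -(2 * (N : ℤ)) - 1
    · intro q
      simp only [hH]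
      rw [small _ (by omega), sup_eq_left.2 (g1 q)]
    · rcases (hS _ (H1 _) (H2 _) (H3 _)).2 (eqH (k1 - 1) (by omega) (by omega)) with h | h
      · have := hmin (k1 - 1) ⟨by omega, h⟩
        omega
      · exact h
  refine ⟨k1, fun p => le_antisymm ?_ ?_⟩
  · by_cases hp : p ≤ -(N : ℤ)
    · rw [hF.lo p hp]; exact le_top
    · refine Int.le_induction (motive := fun p _ => F' (p + k1) ≤ F p) (m := -(N : ℤ)) ?_ ?_ p (by omega)
      · rw [hF.lo _ le_rfl]; exact le_top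
      · intro q _ ih
        rw [← hP (q + 1)]
        refine le_trans ?_ le_sup_left
        simp only [hA]
        rw [show q + 1 - 1 + (k1 + 1) = q + 1 + k1 by ring, add_sub_cancel_right]
        exact le_inf le_rfl ((hF'.anti (by omega)).trans ih)
  · by_cases hp : (N : ℤ) ≤ p
    · rw [hF.hi p hp]; exact bot_le
    · refine Int.le_induction_down (motive := fun p _ => F p ≤ F' (p + k1)) (m := (N : ℤ)) ?_ ?_ p
        (by omega)
      · rw [hF.hi _ le_rfl]; exact bot_le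
      · intro q _ ih
        rw [← hfull q]
        refine sup_le ?_ (ih.trans (hF'.anti (by omega)))
        simp only [hA]
        rw [sub_add_cancel]
        exact inf_le_left

end Vale.Agent.P275LM
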