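import Vale.Agent.P275LM.Main

/-! # P275: existence of a maximising filtration, stability of graded objects -/

set_option linter.all false

namespace Vale.Agent.P275LM

open Finset

variable {L : Type*} [Lattice L] [BoundedOrder L] {δ : L → ℤ} {T : L → L → Prop}

/-- a rank function with `δ a ≡ - d * rk a` modulo `n`, `n` and `d` coprime -/
structure Rk (δ : L → ℤ) (rk : L → ℕ) (n : ℕ) (d : ℤ) : Prop where
  sm : StrictMono rk
  bot : rk ⊥ = 0
  top : rk ⊤ = n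
  cop : IsCoprime (n : ℤ) d
  dvd : ∀ a, (n : ℤ) ∣ δ a + d * rk a

variable {rk : L → ℕ} {n : ℕ} {d : ℤ}

theorem Rk.le (R : Rk δ rk n d) (a : L) : rk a ≤ n := R.top ▸ R.sm.monotone le_top

theorem Rk.eq (R : Rk δ rk n d) {a b : L} (h : a ≤ b) (e : rk b ≤ rk a) : a = b := by
  by_contra hc
  have := R.sm (lt_of_le_of_ne h hc)
  omega

theorem Rk.zero (R : Rk δ rk n d) {a : L} (h : δ a = 0) : a = ⊥ ∨ a = ⊤ := by
  have h1 := R.dvd a
  rw [h, zero_add] at h1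
  have h2 : (n : ℤ) ∣ (rk a : ℤ) := R.cop.dvd_of_dvd_mul_left h1
  have h3 : n ∣ rk a := Int.natCast_dvd_natCast.1 h2
  by_cases h0 : rk a = 0
  · exact Or.inl (R.eq bot_le (by rw [h0]; exact Nat.zero_le _)).symm
  · exact Or.inr (R.eq le_top (by rw [R.top]; exact Nat.le_of_dvd (Nat.pos_of_ne_zero h0) h3))

/-- two families squeezed between `A p ≤ H p ≤ B p` whose total rank difference is `n` -/
theorem Rk.strict (R : Rk δ rk n d) {A H B : ℤ → L} {a b : ℤ} (h1 : ∀ p, A p ≤ H p)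
    (h2 : ∀ p, H p ≤ B p) (h3 : ∀ p, p < a ∨ b < p → A p = B p)
    (h4 : ∑ p ∈ Icc a b, ((rk (B p) : ℤ) - rk (A p)) = n)
    (h5 : ∑ p ∈ Icc a b, δ (H p) = ∑ p ∈ Icc a b, δ (A p)) :
    (∀ p, H p = A p) ∨ ∀ p, H p = B p := by
  have e1 : (n : ℤ) ∣ d * ∑ p ∈ Icc a b, ((rk (H p) : ℤ) - rk (A p)) := by
    have : d * ∑ p ∈ Icc a b, ((rk (H p) : ℤ) - rk (A p)) =
        ∑ p ∈ Icc a b, ((δ (H p) + d * rk (H p)) - (δ (A p) + d * rk (A p))) := by
      rw [mul_sum, sum_sub_distrib, sum_add_distrib, sum_add_distrib, h5]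
      simp only [mul_sub, sum_sub_distrib]
      ring
    rw [this]
    exact dvd_sum fun p _ => dvd_sub (R.dvd _) (R.dvd _)
  have e2 := R.cop.dvd_of_dvd_mul_left e1
  have p1 : ∀ p, (0 : ℤ) ≤ (rk (H p) : ℤ) - rk (A p) := fun p => by
    have := R.sm.monotone (h1 p); omega
  have p2 : ∀ p, (rk (H p) : ℤ) - rk (A p) ≤ (rk (B p) : ℤ) - rk (A p) := fun p => by
    have := R.sm.monotone (h2 p); omega
  have s1 : 0 ≤ ∑ p ∈ Icc a b, ((rk (H p) : ℤ) - rk (A p)) := sum_nonneg fun p _ => p1 p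
  have s2 := sum_le_sum (s := Icc a b) fun p _ => p2 p
  have out : ∀ p, p ∉ Icc a b → H p = A p ∧ H p = B p := fun p hp => by
    simp only [mem_Icc] at hp
    have e := h3 p (by omega)
    exact ⟨le_antisymm (e ▸ h2 p) (h1 p), le_antisymm (h2 p) (e ▸ h1 p)⟩
  rcases s1.eq_or_lt with h0 | h0
  · left
    intro p
    by_cases hp : p ∈ Icc a b
    · have := (sum_eq_zero_iff_of_nonneg fun p _ => p1 p).1 h0.symm p hp
      exact (R.eq (h1 p) (by omega)).symm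
    · exact (out p hp).1
  · right
    have := Int.le_of_dvd h0 e2
    intro p
    by_cases hp : p ∈ Icc a b
    · have := (sum_eq_sum_iff_of_le fun p _ => p2 p).1 (le_antisymm s2 (by omega)) p hp
      exact R.eq (h2 p) (by omega)
    · exact (out p hp).2

theorem lm_of (D : Dat δ T) (R : Rk δ rk n d) {N : ℕ} {F : ℤ → L} (hF : Tv T N F)
    (h : ∀ H : ℤ → L, (∀ p, F p ≤ H p) → (∀ p, H p ≤ F (p - 1)) → (∀ p, T (H p) (H (p - 1))) →
      nu δ H ≤ nu δ F) : LM δ T F := by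
  intro H h1 h2 h3
  refine ⟨h H h1 h2 h3, fun e => ?_⟩
  have hH := hF.sand h1 h2 h3
  refine R.strict (a := -(N : ℤ) - 1 + 1) (b := -(N : ℤ) - 1 + (2 * N + 2 : ℕ)) h1 h2 ?_ ?_ ?_
  · rintro p (hp | hp)
    · rw [hF.lo p (by omega), hF.lo (p - 1) (by omega)]
    · push_cast at hp
      rw [hF.hi p (by omega), hF.hi (p - 1) (by omega)]
  · have := sum_tele (fun p => -(rk (F p) : ℤ)) (-(N : ℤ) - 1) (2 * N + 2)
    rw [hF.lo (-(N : ℤ) - 1) (by omega), hF.hi (-(N : ℤ) - 1 + _) (by push_cast; omega), R.top,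
      R.bot] at this
    rw [← show _ = (n : ℤ) from this.trans (by simp)]
    exact sum_congr rfl fun p _ => by ring
  · have a1 : nu δ H = _ := nu_eq (a := -(N : ℤ) - 1 + 1) (b := -(N : ℤ) - 1 + (2 * N + 2 : ℕ))
      fun p hp => by
        rcases hp with hp | hp
        · rw [hH.lo p (by push_cast; omega), D.top]
        · rw [hH.hi p (by push_cast at hp ⊢; omega), D.bot]
    rw [← a1, ← hF.nu_eq D (by omega) (by push_cast; omega), e]

theorem st_of (D : Dat δ T) (R : Rk δ rk n d) {N : ℕ} {G : ℤ → L} (hG : Lw T N G)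
    (h : ∀ H : ℤ → L, (∀ p, G (p - 1) ≤ H p) → (∀ p, H p ≤ G p) → (∀ p, T (H p) (H (p - 1))) →
      nu δ H ≤ nu δ G) : St δ T G := by
  intro H h1 h2 h3
  refine ⟨h H h1 h2 h3, fun e => Or.symm ?_⟩
  have hH := hG.sand h1 h2 h3
  refine R.strict (A := fun p => G (p - 1)) (a := -(N : ℤ) - 1 + 1)
    (b := -(N : ℤ) - 1 + (2 * N + 2 : ℕ)) h1 h2 ?_ ?_ ?_
  · rintro p (hp | hp)
    · rw [hG.lo p (by omega), hG.lo (p - 1) (by omega)]
    · push_cast at hp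
      rw [hG.hi p (by omega), hG.hi (p - 1) (by omega)]
  · have := sum_tele (fun p => (rk (G p) : ℤ)) (-(N : ℤ) - 1) (2 * N + 2)
    rw [hG.lo (-(N : ℤ) - 1) (by omega), hG.hi (-(N : ℤ) - 1 + _) (by push_cast; omega), R.top,
      R.bot] at this
    rw [this]; simp
  · have a1 : nu δ H = _ := nu_eq (a := -(N : ℤ) - 1 + 1) (b := -(N : ℤ) - 1 + (2 * N + 2 : ℕ))
      fun p hp => by
        rcases hp with hp | hp
        · rw [hH.lo p (by push_cast; omega), D.bot]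
        · rw [hH.hi p (by push_cast at hp ⊢; omega), D.top]
    have a2 : nu δ (fun p => G (p + -1)) = _ := nu_eq (a := -(N : ℤ) - 1 + 1)
      (b := -(N : ℤ) - 1 + (2 * N + 2 : ℕ)) fun p hp => by
        rcases hp with hp | hp
        · rw [hG.lo _ (by omega), D.bot]
        · rw [hG.hi _ (by push_cast at hp ⊢; omega), D.top]
    rw [nu_shift] at a2
    rw [← a1, e, a2]
    rfl

/-- the weight is bounded when invariant subobjects have nonpositive degree -/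
theorem nu_bdd (D : Dat δ T) (R : Rk δ rk n d) {C : ℕ} (hC : ∀ a, δ a ≤ C)
    (hs : ∀ a, T a a → δ a ≤ 0) {N : ℕ} {F : ℤ → L} (hF : Tv T N F) : nu δ F ≤ C * n := by
  rw [hF.nu_eq D (a := -(N : ℤ) - 1 + 1) (b := -(N : ℤ) - 1 + (2 * N + 2 : ℕ)) (by omega)
    (by push_cast; omega)]
  have := sum_tele (fun p => -((C : ℤ) * rk (F p))) (-(N : ℤ) - 1) (2 * N + 2)
  rw [hF.lo (-(N : ℤ) - 1) (by omega), hF.hi (-(N : ℤ) - 1 + _) (by push_cast; omega), R.top,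
    R.bot] at this
  refine (sum_le_sum fun p _ => ?_).trans (this.trans (by simp)).le
  have m : F p ≤ F (p - 1) := hF.anti (by omega)
  rcases m.eq_or_lt with e | e
  · have t := hF.tr p
    rw [← e] at t ⊢
    have := hs _ t
    omega
  · have h1 : (rk (F p) : ℤ) + 1 ≤ rk (F (p - 1)) := by exact_mod_cast R.sm e
    have h2 := hC (F p)
    have h3 : (0 : ℤ) ≤ C := Int.natCast_nonneg C
    nlinarith

/-- **(L)** a transverse filtration of maximal weight -/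
theorem exists_lm (D : Dat δ T) (R : Rk δ rk n d) (hT : T ⊥ ⊤) {C : ℕ} (hC : ∀ a, δ a ≤ C)
    (hs : ∀ a, T a a → δ a ≤ 0) : ∃ N F, Tv T N F ∧ LM δ T F ∧ 0 ≤ nu δ F := by
  have h0 : Tv T 1 fun p : ℤ => if p ≤ 0 then (⊤ : L) else ⊥ := by
    refine ⟨fun p q hpq => ?_, fun p hp => if_pos (by push_cast at hp; omega),
      fun p hp => if_neg (by push_cast at hp; omega), fun p => ?_⟩
    · by_cases hq : q ≤ 0
      · simp [hq, hpq.trans hq]
      · simp [hq]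
    · by_cases h1 : p ≤ 0
      · rw [if_pos h1, if_pos (by omega)]; exact D.top_T
      · rw [if_neg h1]
        by_cases h2 : p - 1 ≤ 0
        · rw [if_pos h2]; exact hT
        · rw [if_neg h2]; exact D.bot_T
  have n0 : nu δ (fun p : ℤ => if p ≤ 0 then (⊤ : L) else ⊥) = 0 := by
    unfold nu
    rw [finsum_eq_zero_of_forall_eq_zero]
    intro p
    beta_reduce
    split_ifs
    · exact D.top
    · exact D.bot
  obtain ⟨m, ⟨N, F, hF, rfl⟩, hm⟩ := Int.exists_greatest_of_bdd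
    (P := fun m => ∃ N F, Tv T N F ∧ nu δ F = m)
    ⟨C * n, by rintro _ ⟨N, F, hF, rfl⟩; exact nu_bdd D R hC hs hF⟩ ⟨_, 1, _, h0, rfl⟩
  exact ⟨N, F, hF, lm_of D R hF fun H h1 h2 h3 => hm _ ⟨_, H, hF.sand h1 h2 h3, rfl⟩,
    n0 ▸ hm _ ⟨1, _, h0, rfl⟩⟩

/-- an object with a locally maximal transverse filtration is semistable -/
theorem LM.inv (D : Dat δ T) {N : ℕ} {F : ℤ → L} (hF : Tv T N F) (h : LM δ T F) {S : L}
    (hS : T S S) : δ S ≤ 0 := by
  have g1 : ∀ q, F q ≤ F (q - 1) := fun q => hF.anti (by omega)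
  have h1 : ∀ p, F p ≤ (S ⊓ F (p - 1)) ⊔ F p := fun p => le_sup_right
  have h2 : ∀ p, (S ⊓ F (p - 1)) ⊔ F p ≤ F (p - 1) := fun p => sup_le inf_le_right (g1 p)
  have h3 : ∀ p, T ((S ⊓ F (p - 1)) ⊔ F p) ((S ⊓ F (p - 1 - 1)) ⊔ F (p - 1)) := fun p =>
    D.sup_T _ _ _ _ (D.inf_T _ _ _ _ hS (hF.tr (p - 1))) (hF.tr p)
  have a := (h _ h1 h2 h3).1
  rw [(hF.sand h1 h2 h3).nu_eq D (a := -(N : ℤ) - 2 + 1) (b := -(N : ℤ) - 2 + (2 * N + 3 : ℕ))
    (by push_cast; omega) (by push_cast; omega), hF.nu_eq D (a := -(N : ℤ) - 2 + 1)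
    (b := -(N : ℤ) - 2 + (2 * N + 3 : ℕ)) (by omega) (by push_cast; omega)] at a
  have b := sum_tele (fun p => -δ (S ⊓ F p)) (-(N : ℤ) - 2) (2 * N + 3)
  rw [hF.lo (-(N : ℤ) - 2) (by omega), hF.hi (-(N : ℤ) - 2 + _) (by push_cast; omega), inf_bot_eq,
    inf_top_eq, D.bot] at b
  have c : ∑ q ∈ Icc (-(N : ℤ) - 2 + 1) (-(N : ℤ) - 2 + (2 * N + 3 : ℕ)),
      ((-δ (S ⊓ F q) - -δ (S ⊓ F (q - 1))) + δ (F q)) ≤ ∑ q ∈ Icc (-(N : ℤ) - 2 + 1)
      (-(N : ℤ) - 2 + (2 * N + 3 : ℕ)), δ ((S ⊓ F (q - 1)) ⊔ F q) := sum_le_sum fun q _ => by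
    have := D.sup (S ⊓ F (q - 1)) (F q)
    rw [inf_assoc, inf_eq_right.2 (g1 q)] at this
    omega
  rw [sum_add_distrib, b] at c
  omega

end Vale.Agent.P275LM
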