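import Vale.Agent.P275LM.Fin
import Vale.Agent.P275MB.Gau
import Vale.Agent.P275OS.Fin

/-! # P275: stability is open -/

set_option linter.all false

open scoped Matrix.Norms.Operator Topology
open Filter Set Matrix Metric

noncomputable section

namespace Vale.Agent.P275LM

open Vale.Agent.P275GC Vale.Agent.P275GC.At
open Vale.Agent.P275NA (Fm Cy Mn)
open Vale.Agent.P275MO hiding Dat
open Vale.Agent.P275MB (off_open)

/-- a space with one point which is not isolated -/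
def Adj (T : Type) [TopologicalSpace T] (t : T) : Type := ℂ × T

section adj

variable {T Z Y : Type} [TopologicalSpace T] [TopologicalSpace Y] {t : T} {V : Set T}

instance : TopologicalSpace (Adj T t) := nhdsAdjoint (0, t) ((𝓝[≠] (0 : ℂ)).curry (𝓝 t))

/-- the special point -/
def pt0 (t : T) : Adj T t := (0, t)

/-- the punctured neighbourhoods -/
def fl0 (t : T) : Filter (Adj T t) := (𝓝[≠] (0 : ℂ)).curry (𝓝 t)

theorem nhds_ne {q : Adj T t} (h : q ≠ pt0 t) : 𝓝 q = pure q := nhds_nhdsAdjoint_of_ne _ h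

theorem nhds_pt : 𝓝 (pt0 t) = pure (pt0 t) ⊔ fl0 t := nhds_nhdsAdjoint_same _ _

open Classical in
/-- the family on this space -/
def glu (t : T) (G : ℂ → Z) (K : ℂ → T → Z) (q : Adj T t) : Z := if q.1 = 0 then G 0 else K q.1 q.2

theorem glu_ne {G : ℂ → Z} {K : ℂ → T → Z} {q : Adj T t} (h : q.1 ≠ 0) :
    glu t G K q = K q.1 q.2 := if_neg h

theorem glu_eq {G : ℂ → Z} {K : ℂ → T → Z} {q : Adj T t} (h : q.1 = 0) : glu t G K q = G 0 :=
  if_pos h

theorem glu_cont {G : ℂ → Z} {K : ℂ → T → Z} (κ : Z → ℂ → Y) (D : Z → Set ℂ) {O : Set ℂ}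
    (hO : IsOpen O) (ht : t ∈ V) (hG : ContinuousOn (fun p : ℂ × ℂ => κ (G p.1) p.2) (univ ×ˢ O))
    (hK : ∀ s, s ≠ 0 → ContinuousOn (fun p : T × ℂ => κ (K s p.1) p.2)
      {p | p.1 ∈ V ∧ p.2 ∈ D (K s p.1)}) (d0 : D (G 0) = O)
    (e : ∀ s, s ≠ 0 → ∀ w ∈ O, w ∈ D (K s t) ∧ κ (K s t) w = κ (G s) w) :
    ContinuousOn (fun p : Adj T t × ℂ => κ (glu t G K p.1) p.2)
      {p | (p.1.1 = 0 ∨ p.1.2 ∈ V) ∧ p.2 ∈ D (glu t G K p.1)} := by
  rintro ⟨q, w⟩ ⟨a, b⟩
  have iso : Tendsto (fun p : Adj T t × ℂ => κ (glu t G K p.1) p.2) (pure q ×ˢ 𝓝 w ⊓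
      𝓟 {p | (p.1.1 = 0 ∨ p.1.2 ∈ V) ∧ p.2 ∈ D (glu t G K p.1)}) (𝓝 (κ (glu t G K q) w)) := by
    have : ContinuousWithinAt (κ (glu t G K q)) (D (glu t G K q)) w := by
      by_cases c : q.1 = 0
      · simp only [glu_eq c, d0] at b ⊢
        exact (hG.comp (continuousOn_const.prodMk continuousOn_id) fun y hy => ⟨trivial, hy⟩) w b
      · simp only [glu_ne c] at b ⊢
        exact ((hK _ c).comp (continuousOn_const.prodMk continuousOn_id)
          fun y hy => ⟨a.resolve_left c, hy⟩) w b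
    intro U hU
    rw [mem_map, mem_inf_principal, pure_prod, mem_map]
    filter_upwards [eventually_nhdsWithin_iff.1 (this hU)] with y hy c using hy c.2
  rw [ContinuousWithinAt, nhdsWithin, nhds_prod_eq]
  by_cases c : q = pt0 t
  swap
  · rwa [nhds_ne c]
  subst c
  rw [nhds_pt, sup_prod, inf_sup_right]
  refine iso.sup fun U hU => ?_
  simp only [glu_eq (G := G) (K := K) (q := pt0 t) rfl, d0] at b hU
  obtain ⟨U', u1, u2, u3⟩ := mem_nhds_iff.1 hU
  have c0 := (hG.continuousAt (prod_mem_nhds univ_mem (hO.mem_nhds b))).eventually (u2.mem_nhds u3)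
  obtain ⟨S, hS, B', hB', h1⟩ := mem_nhds_prod_iff.1 c0
  obtain ⟨B, hB, h2, h3⟩ := local_compact_nhds (inter_mem hB' (hO.mem_nhds b))
  rw [mem_map, mem_inf_principal]
  refine mem_of_superset (prod_mem_prod (s := {q : Adj T t | q.1 ≠ 0 ∧ ∀ y ∈ B, q.2 ∈ V ∧
    y ∈ D (K q.1 q.2) → κ (K q.1 q.2) y ∈ U'}) ?_ hB) fun p a c => ?_
  · refine eventually_curry_iff.2 ?_
    filter_upwards [self_mem_nhdsWithin, mem_nhdsWithin_of_mem_nhds hS] with s s0 s1
    refine (h3.eventually_forall_of_forall_eventually (P := fun u y => u ∈ V ∧ y ∈ D (K s u) →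
      κ (K s u) y ∈ U') fun y hy => ?_).mono fun u a => ⟨s0, a⟩
    have := e s s0 y (h2 hy).2
    exact eventually_nhdsWithin_iff.1 ((hK s s0 (t, y) ⟨ht, this.1⟩).eventually
      (u2.mem_nhds (mem_of_eq_of_mem this.2 (h1 (mk_mem_prod s1 (h2 hy).1)))))
  · have a1 := glu_ne (G := G) (K := K) a.1.1
    refine u1 ?_
    show κ (glu t G K p.1) p.2 ∈ U'
    rw [a1]
    exact a.1.2 p.2 a.2 ⟨c.1.resolve_left a.1.1, a1 ▸ c.2⟩

theorem glu_cont0 {G : ℂ → Z} {K : ℂ → T → Z} (κ : Z → Y) (D : Z → Prop) (ht : t ∈ V)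
    (hG : D (G 0) → Continuous fun s => κ (G s))
    (hK : ∀ s, s ≠ 0 → ContinuousOn (fun u => κ (K s u)) {u | u ∈ V ∧ D (K s u)})
    (e : ∀ s, s ≠ 0 → D (G 0) → D (K s t) ∧ κ (K s t) = κ (G s)) :
    ContinuousOn (fun q : Adj T t => κ (glu t G K q))
      {q | (q.1 = 0 ∨ q.2 ∈ V) ∧ D (glu t G K q)} :=
  (glu_cont (fun z _ => κ z) (fun z => {_w | D z}) (O := {_w | D (G 0)}) isOpen_const ht
    (fun p a => ((hG a.2).comp continuous_fst).continuousWithinAt)
    (fun s hs => (hK s hs).comp continuousOn_fst fun _ a => a) rfl fun s hs _ a => e s hs a).comp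
    (continuousOn_id.prodMk (continuousOn_const (c := (0 : ℂ)))) fun _ a => a

end adj

variable {C : Type} [TopologicalSpace C] {A : At C} {n : ℕ} {l : Cy A ℂ} {e : ℤ}

theorem opst_pj (S : Std A l n e) {T : Type} [TopologicalSpace T] {F : T → P275MO.Dat C A.N n}
    {V : Set T} {t : T} (f : FamOn A l F V) (ht : t ∈ V) (st : Stab A l (F t))
    (pj : PJ A (F t).g) : ∀ᶠ u in 𝓝[V] t, Stab A l (F u) := by
  have := S.t2
  have := S.conn
  have g := f.good t ht
  obtain ⟨G, a, b, c, d⟩ := lim_pj S g st pj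
  choose! Φ h _ I using d
  have ga := fun s => a.good s trivial
  have dc := fun s hs => P275MB.det_const S.cc (I s hs).hol (ga s).det
    (P275MB.Good.smul g s).det (I s hs).law
  choose! k hk using dc
  obtain ⟨i0, w0, h0⟩ := P275KR.Sb.ex_pt A
  have k0 : ∀ s, s ≠ 0 → k s ≠ 0 := fun s hs => hk s hs i0 w0 h0 ▸ (I s hs).det i0 w0 h0
  have dh := fun s hs => P275MB.IsoBy.det_h (ga s) (I s hs)
  let K : ℂ → T → P275MO.Dat C A.N n := fun s u => (gauge A (Φ s) ((F u).smul s)).act (h s)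
  have fK : ∀ s, s ≠ 0 → FamOn A l (K s) V := fun s hs =>
    P275MB.FamOn.act (P275MB.FamOn.gauge (P275MB.FamOn.smul f continuousOn_const)
      (fun _ _ => (I s hs).hol) (fun _ _ => k0 s hs) (fun _ _ => hk s hs) fun i =>
        ((I s hs).hol i).continuousOn.comp continuousOn_snd fun _ a => a.2) continuousOn_const
      fun _ _ => dh s hs
  have ex : ∀ s, (G s).x = (F t).x := ext0 (continuousOn_univ.1 a.x) continuous_const
    fun s hs => (I s hs).x.symm
  have fam : FamOn A l (glu t G K) {q | q.1 = 0 ∨ q.2 ∈ V} := by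
    have all : ∀ {Y : Type} [TopologicalSpace Y] (κ : P275MO.Dat C A.N n → Y),
        ContinuousOn (fun s => κ (G s)) univ → (∀ s, s ≠ 0 → ContinuousOn (fun u => κ (K s u)) V) →
        (∀ s, s ≠ 0 → κ (K s t) = κ (G s)) →
        ContinuousOn (fun q => κ (glu t G K q)) {q | q.1 = 0 ∨ q.2 ∈ V} := fun κ a1 a2 a3 =>
      (glu_cont0 κ (fun _ => True) ht (fun _ => continuousOn_univ.1 a1) (fun s hs =>
        (a2 s hs).mono fun _ a => a.1) fun s hs _ => ⟨trivial, a3 s hs⟩).mono fun _ a => ⟨a, trivial⟩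
    refine ⟨fun q hq => ?_, all _ a.lam (fun s hs => (fK s hs).lam) fun s hs => (I s hs).lam,
      all _ a.x (fun s hs => (fK s hs).x) fun s hs => (I s hs).x,
      all _ a.R (fun s hs => (fK s hs).R) fun s hs => ?_,
      fun i j => glu_cont (G := G) (K := K) (fun z => z.g i j) (fun _ => A.O i j) (O_open i j) ht (a.g i j)
        (fun s hs => (fK s hs).g i j) rfl fun s hs w o => ⟨o, ?_⟩,
      fun i => glu_cont (G := G) (K := K) (fun z => z.a i) (fun z => off A z.x i) (off_open (F t).x i) ht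
        ((a.a i).mono fun p o => ⟨trivial, ex _ ▸ o.2⟩) (fun s hs => (fK s hs).a i) (by rw [ex])
        fun s hs w o => ⟨o, ?_⟩,
      fun i => glu_cont0 (G := G) (K := K) (fun z => z.σ i) (fun z => z.x ∈ (A.e i).source) ht
        (fun o => continuousOn_univ.1 ((a.σ i).mono fun s _ => ⟨trivial, by rwa [ex] at o ⊢⟩))
        (fun s hs => (fK s hs).σ i) fun s hs o => ⟨ex 0 ▸ o, ?_⟩⟩
    · by_cases c : q.1 = 0
      · rw [glu_eq c]; exact ga 0
      · rw [glu_ne c]; exact (fK _ c).good _ (hq.resolve_left c)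
    · show (h s)⁻¹ * ((F t).smul s).R * h s = _
      rw [P275MB.IsoBy.R (ga s) (P275MB.Good.smul g s) (I s hs)]
      simp only [mul_assoc, nonsing_inv_mul _ (dh s hs).isUnit, mul_one,
        nonsing_inv_mul_cancel_left _ _ (dh s hs).isUnit]
    · show (Φ s i w)⁻¹ * ((F t).smul s).g i j w * Φ s j _ = _
      rw [mul_assoc, ← (I s hs).law i j w o,
        nonsing_inv_mul_cancel_left _ _ ((I s hs).det i w o.1).isUnit]
    · show (Φ s i w)⁻¹ * (((F t).smul s).lam • _ + ((F t).smul s).a i w * _) = _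
      rw [(I s hs).lam, (I s hs).con i w (ex s ▸ o),
        nonsing_inv_mul_cancel_left _ _ ((I s hs).det i w o.1).isUnit]
    · have o' : (G s).x ∈ (A.e i).source := by rwa [ex] at o ⊢
      show (Φ s i (A.e i (F t).x))⁻¹ * ((F t).smul s).σ i * h s = _
      rw [mul_assoc, ← (I s hs).fr i o', ex,
        nonsing_inv_mul_cancel_left _ _ ((I s hs).det i _ (map_src (ex s ▸ o'))).isUnit]
  have z0 : glu t G K (pt0 t) = G 0 := glu_eq rfl
  have := P275OS.opst0' S (Adj T t) _ _ (pt0 t) fam (Or.inl rfl) (z0 ▸ b) (z0 ▸ c 0)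
  rw [eventually_nhdsWithin_iff, nhds_pt] at this
  obtain ⟨s, s0, hs⟩ := (eventually_mem_nhdsWithin.and
    (eventually_curry_iff.1 (eventually_sup.1 this).2)).exists
  filter_upwards [mem_nhdsWithin_of_mem_nhds hs, self_mem_nhdsWithin] with u a1 a2
  have a3 := a1 (Or.inr a2)
  rw [glu_ne (q := (s, u)) s0] at a3
  have gu := P275MB.Good.smul (f.good u a2) s
  have gg := P275MB.Good.gauge gu (I s s0).hol (k0 s s0) (hk s s0)
  have iu := P275MB.IsoBy.symm gg (P275MB.isoBy_gauge (I s s0).hol (I s s0).det)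
  exact (P275MB.stab_smul s0).1 (P275MB.Stab.iso gu gg iu.toHom iu.det (P275MB.stab_act.1 a3))

/-- **OPST** stability is an open condition -/
theorem opst (S : Std A l n e) : OPST n A l := fun T _ F V t f ht st => by
  have := S.t2
  have := S.conn
  obtain ⟨r, h1, h2⟩ := exists_between A.hR
  filter_upwards [opst_pj (std_res S h1 h2.le) (P275MB.FamOn.res f) ht
    ((P275MB.stab_res (f.good t ht)).2 st) (pj_res (f.good t ht).cc h1 h2), self_mem_nhdsWithin]
    with u a b using (P275MB.stab_res (f.good u b)).1 a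

end Vale.Agent.P275LM
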