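import Vale.Agent.P275KR.Sb
import Vale.Agent.P275TR.Triv

/-! # P275: holomorphic projectors onto subbundles over a disc -/

set_option linter.all false

open scoped Matrix.Norms.Operator Topology
open Filter Set Matrix Metric

noncomputable section

namespace Vale.Agent.P275LM

open Vale.Agent.P281Z.Hm Vale.Agent.P275NA Vale.Agent.P275KR

variable {n r q : ℕ}

/-- the additive Cousin problem for matrices on a disc -/
theorem cousin_mat {J : Type} (O : J → Set ℂ) (hO : ∀ a, IsOpen (O a)) {ρ : ℝ}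
    (hc : closedBall (0 : ℂ) ρ ⊆ ⋃ a, O a) (c : J → J → ℂ → Mr r q)
    (ha : ∀ a b, ∀ z ∈ O a ∩ O b, AnalyticAt ℂ (c a b) z)
    (hcoc : ∀ a b d, ∀ z ∈ O a ∩ O b ∩ O d, c a d z = c a b z + c b d z) :
    ∃ u : J → ℂ → Mr r q, ∀ z ∈ ball (0 : ℂ) ρ, ∀ a, z ∈ O a → AnalyticAt ℂ (u a) z ∧
      ∀ b, z ∈ O b → u b z = u a z + c a b z := by
  have := fun i j => P290.Good.cousin1' (S := closedBall (0 : ℂ) ρ)
    ⟨isCompact_closedBall _ _, convex_closedBall _ _⟩ O hO hc (fun a b z => c a b z i j)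
    (fun a b z hz => (an_ent (ha a b z hz) i j).differentiableAt)
    fun a b d z hz => by rw [hcoc a b d z hz]; rfl
  choose u hu using this
  have h : ∀ i j, ∀ z ∈ ball (0 : ℂ) ρ, P290.ASol O (fun a b z => c a b z i j) (u i j) z :=
    fun i j z hz => (hu i j).self_of_nhdsSet z (ball_subset_closedBall hz)
  refine ⟨fun a z => Matrix.of fun i j => u i j a z, fun z hz a h1 => ⟨an_of fun i j => ?_,
    fun b h2 => Matrix.ext fun i j => (h i j z hz a h1).2 b h2⟩⟩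
  exact DifferentiableOn.analyticAt (s := ball 0 ρ ∩ O a)
    (fun w hw => (h i j w hw.1 a hw.2).1.differentiableWithinAt)
    ((isOpen_ball.inter (hO a)).mem_nhds ⟨hz, h1⟩)

theorem blk_l {t s : Mr n r} {T S : Mr n q} {t' s' : Mr r n} {T' S' : Mr q n}
    (h : Blk t T t' T') (k : Blk s S s' S') (e : rg t = rg s) : S' * T * T' = S' := by
  have a : S' * t = 0 := by
    rw [← eq_mul_of_le k.ss e.le, ← Matrix.mul_assoc, k.ts, Matrix.zero_mul]
  have b := congrArg (S' * ·) h.one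
  simp only [Matrix.mul_add, ← Matrix.mul_assoc, a, Matrix.zero_mul, zero_add,
    Matrix.mul_one] at b
  exact b

/-- a holomorphic projector onto a subbundle, on a smaller disc -/
theorem exists_prj {V : ℂ → Sp n} {ρ' ρ : ℝ} (h : ρ' < ρ)
    (hV : ∀ z ∈ ball (0 : ℂ) ρ, ∃ t : ℂ → Mr n r, FrAt V t z) :
    ∃ π : ℂ → Mn n, ∀ z ∈ ball (0 : ℂ) ρ', AnalyticAt ℂ π z ∧ (∀ v, π z *ᵥ v ∈ V z) ∧
      ∀ v ∈ V z, π z *ᵥ v = v := by
  classical
  have : ∀ a : ball (0 : ℂ) ρ, Nonempty (Fr V a r (n - r)) := fun a => by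
    obtain ⟨t, ht⟩ := hV a a.2
    obtain ⟨q, F, -⟩ := exists_fr ht
    obtain rfl : q = n - r := by have := F.card; omega
    exact ⟨F⟩
  let F := fun a => (this a).some
  let O : ball (0 : ℂ) ρ → Set ℂ := fun a => interior {w | (AnalyticAt ℂ (F a).t w ∧
    AnalyticAt ℂ (F a).T w ∧ AnalyticAt ℂ (F a).t' w ∧ AnalyticAt ℂ (F a).T' w) ∧
    Blk ((F a).t w) ((F a).T w) ((F a).t' w) ((F a).T' w) ∧ rg ((F a).t w) = V w}
  have hO : ∀ a, IsOpen (O a) := fun _ => isOpen_interior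
  have hm : ∀ a : ball (0 : ℂ) ρ, (a : ℂ) ∈ O a := fun a => mem_interior_iff_mem_nhds.2
    (((F a).a1.eventually_analyticAt.and ((F a).a2.eventually_analyticAt.and
      ((F a).a3.eventually_analyticAt.and (F a).a4.eventually_analyticAt))).and
      ((F a).blk.and (F a).rg))
  have an := fun a w (hw : w ∈ O a) => (interior_subset hw).1
  have bl := fun a w (hw : w ∈ O a) => (interior_subset hw).2.1
  have hr := fun a w (hw : w ∈ O a) => (interior_subset hw).2.2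
  have e1 : ∀ a b w, w ∈ O a → w ∈ O b → (F a).t w * ((F a).t' w * (F b).t w) = (F b).t w :=
    fun a b w ha hb => eq_mul_of_le (bl a w ha).ss ((hr b w hb).trans (hr a w ha).symm).le
  have e2 : ∀ a b w, w ∈ O a → w ∈ O b → (F a).T' w * (F b).T w * (F b).T' w = (F a).T' w :=
    fun a b w ha hb => blk_l (bl b w hb) (bl a w ha) ((hr b w hb).trans (hr a w ha).symm)
  obtain ⟨ρ₁, r1, r2⟩ := exists_between h
  have cov : ∀ z ∈ ball (0 : ℂ) ρ, ∃ a, z ∈ O a := fun z hz => ⟨⟨z, hz⟩, hm ⟨z, hz⟩⟩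
  obtain ⟨s, s1, s2⟩ := P275TR.triv_ok _ _ O (fun a b w => (F a).t' w * (F b).t w) ρ₁ ρ r2 hO cov
    (fun a b z hz => ⟨an_mul (an a z hz.1).2.2.1 (an b z hz.2).1, det_ne_zero_of_right_inverse
      (B := (F b).t' z * (F a).t z) (by
        rw [Matrix.mul_assoc, e1 b a z hz.2 hz.1, (bl a z hz.1).ss])⟩)
    fun a b c z hz => by rw [Matrix.mul_assoc, e1 b c z hz.1.2 hz.2]
  obtain ⟨S, S1, S2⟩ := P275TR.triv_ok _ _ O (fun a b w => (F a).T' w * (F b).T w) ρ₁ ρ r2 hO cov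
    (fun a b z hz => ⟨an_mul (an a z hz.1).2.2.2 (an b z hz.2).2.1, det_ne_zero_of_right_inverse
      (B := (F b).T' z * (F a).T z) (by
        rw [← Matrix.mul_assoc, e2 a b z hz.1 hz.2, (bl a z hz.1).tt])⟩)
    fun a b c z hz => by rw [← Matrix.mul_assoc, e2 a b z hz.1.1 hz.1.2]
  let U := fun a => O a ∩ ball (0 : ℂ) ρ₁
  let t := fun a w => (F a).t w * s a w
  let t' := fun a w => (s a w)⁻¹ * (F a).t' w
  let T := fun a w => (F a).T w * S a w
  let T' := fun a w => (S a w)⁻¹ * (F a).T' w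
  have B : ∀ a, ∀ w ∈ U a, Blk (t a w) (T a w) (t' a w) (T' a w) := fun a w hw => by
    have b := bl a w hw.1
    have u := (s1 a w hw).2.isUnit
    have u' := (S1 a w hw).2.isUnit
    refine ⟨?_, ?_, ?_⟩
    · simp only [t, t']
      rw [Matrix.mul_assoc, ← Matrix.mul_assoc _ ((F a).t w), b.ss, Matrix.one_mul,
        nonsing_inv_mul _ u]
    · simp only [T, T']
      rw [Matrix.mul_assoc, ← Matrix.mul_assoc _ ((F a).T w), b.tt, Matrix.one_mul,
        nonsing_inv_mul _ u']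
    · simp only [t, t', T, T']
      rw [Matrix.mul_assoc, mul_nonsing_inv_cancel_left _ _ u, Matrix.mul_assoc,
        mul_nonsing_inv_cancel_left _ _ u', b.one]
  have g1 : ∀ a b w, w ∈ U a → w ∈ U b → t a w = t b w := fun a b w ha hb => by
    simp only [t]
    rw [s2 a b w ⟨⟨ha.1, hb.1⟩, ha.2⟩, ← Matrix.mul_assoc, e1 a b w ha.1 hb.1]
  have g2 : ∀ a b w, w ∈ U a → w ∈ U b → T' a w = T' b w := fun a b w ha hb => by
    simp only [T']
    rw [← e2 a b w ha.1 hb.1, ← mul_nonsing_inv_cancel_left (S b w) ((F b).T' w)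
      (S1 b w hb).2.isUnit, ← Matrix.mul_assoc _ (S b w), ← S2 a b w ⟨⟨ha.1, hb.1⟩, ha.2⟩,
      nonsing_inv_mul_cancel_left _ _ (S1 a w ha).2.isUnit,
      mul_nonsing_inv_cancel_left _ _ (S1 b w hb).2.isUnit]
  have g3 : ∀ a b w, w ∈ U a → w ∈ U b → t a w * (t' a w * T b w) = T b w - T a w :=
    fun a b w ha hb => by
    rw [← Matrix.mul_assoc, eq_sub_of_add_eq (B a w ha).one, Matrix.sub_mul, Matrix.one_mul,
      Matrix.mul_assoc, g2 a b w ha hb, (B b w hb).tt, Matrix.mul_one]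
  have at' : ∀ a, ∀ w ∈ U a, AnalyticAt ℂ (t' a) w := fun a w hw =>
    an_mul (an_inv (s1 a w hw).1 (s1 a w hw).2) (an a w hw.1).2.2.1
  obtain ⟨u, hu⟩ := cousin_mat U (fun a => (hO a).inter isOpen_ball) (ρ := ρ')
    (fun z hz => by
      have := closedBall_subset_ball r1 hz
      obtain ⟨a, b⟩ := cov z (ball_subset_ball r2.le this)
      exact mem_iUnion.2 ⟨a, b, this⟩) (fun a b w => t' a w * T b w)
    (fun a b z hz => an_mul (at' a z hz.1) (an_mul (an b z hz.2.1).2.1 (S1 b z hz.2).1))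
    fun a b d z hz => by
      have := congrArg (t' a z * ·) (g3 b d z hz.1.2 hz.2)
      simp only [Matrix.mul_sub] at this
      rw [← g1 a b z hz.1.1 hz.1.2, ← Matrix.mul_assoc, (B a z hz.1.1).ss, Matrix.one_mul] at this
      rw [this, add_sub_cancel]
  let π := fun a w => t a w * (t' a w + u a w * T' a w)
  have p1 : ∀ a, ∀ w ∈ U a, π a w = 1 - (T a w - t a w * u a w) * T' a w := fun a w hw => by
    simp only [π]
    rw [Matrix.mul_add, eq_sub_of_add_eq (B a w hw).one, Matrix.sub_mul, Matrix.mul_assoc (t a w)]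
    abel
  have p2 : ∀ a b, ∀ w ∈ ball (0 : ℂ) ρ', w ∈ U a → w ∈ U b → π a w = π b w :=
    fun a b w hw ha hb => by
    rw [p1 a w ha, p1 b w hb, (hu w hw a ha).2 b hb, ← g1 a b w ha hb, ← g2 a b w ha hb,
      Matrix.mul_add, g3 a b w ha hb]
    congr 2
    abel
  have sub : ball (0 : ℂ) ρ' ⊆ ball 0 ρ := ball_subset_ball h.le
  have hU : ∀ z (hz : z ∈ ball (0 : ℂ) ρ'), z ∈ U ⟨z, sub hz⟩ := fun z hz =>
    ⟨hm ⟨z, sub hz⟩, ball_subset_ball r1.le hz⟩
  refine ⟨fun w => if hw : w ∈ ball (0 : ℂ) ρ' then π ⟨w, sub hw⟩ w else 0, fun z hz => ?_⟩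
  have hz' := hU z hz
  refine ⟨AnalyticAt.congr (f := π ⟨z, sub hz⟩) (an_mul (an_mul (an _ z hz'.1).1 (s1 _ z hz').1)
    ((at' _ z hz').add (an_mul (hu z hz _ hz').1 (an_mul (an_inv (S1 _ z hz').1 (S1 _ z hz').2)
      (an _ z hz'.1).2.2.2)))) ?_, fun v => ?_, fun v hv => ?_⟩
  · filter_upwards [isOpen_ball.mem_nhds hz, ((hO _).inter isOpen_ball).mem_nhds hz'] with w a b
    rw [dif_pos a, p2 _ _ w a b (hU w a)]
  · beta_reduce
    rw [dif_pos hz, ← hr _ z hz'.1]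
    simp only [π, t, Matrix.mul_assoc, ← mulVec_mulVec]
    exact ⟨_, rfl⟩
  · rw [← hr _ z hz'.1] at hv
    obtain ⟨x, rfl⟩ := hv
    beta_reduce
    rw [dif_pos hz, p1 _ z hz', mulVecLin_apply, sub_mulVec, one_mulVec, mulVec_mulVec]
    simp only [T', Matrix.mul_assoc, (bl _ z hz'.1).ts, Matrix.mul_zero, zero_mulVec, sub_zero]

end Vale.Agent.P275LM
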