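import Vale.Agent.P275LM.Max
import Vale.Agent.P275LM.Prj
import Vale.Agent.P275LM.Gr
import Vale.Agent.P275MB.Iso
import Vale.Agent.P275KR.Key
import Vale.Agent.P275KR.Zd
import Vale.Agent.P275GC.Deg

/-! # P275: the lattice of subbundles of a connection -/

set_option linter.all false

open scoped Matrix.Norms.Operator Topology ContDiff ComplexOrder
open Filter Set Matrix Metric

noncomputable section

namespace Vale.Agent.P275LM

open Vale.Agent.P281Z.Hm Vale.Agent.P275GC Vale.Agent.P275GC.At Vale.Agent.P275KR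
open Vale.Agent.P275NA (Fm Cy Mn Mr FrAt Sub degS cvS)
open Vale.Agent.P275MO (Good Stab InvC off Std)
open Vale.Agent.P275MB (off_open)

variable {C : Type} [TopologicalSpace C] [T2Space C] [ConnectedSpace C] {A : At C} {n : ℕ}
  {l : Cy A ℂ} {z : P275MO.Dat C A.N n} {i : Fin A.N} {w : ℂ} {d : ℤ}

/-- the connection maps sections of `V` to sections of `W` at the point `w` -/
def TA (z : P275MO.Dat C A.N n) (V W : Fm A (Sp n)) (i : Fin A.N) (w : ℂ) : Prop :=
  ∀ s : ℂ → Fin n → ℂ, AnalyticAt ℂ s w → (∀ᶠ y in 𝓝 w, s y ∈ V i y) →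
    z.lam • deriv s w + z.a i w *ᵥ s w ∈ W i w

/-- the connection maps sections of `V` to sections of `W` -/
def TC (z : P275MO.Dat C A.N n) (V W : Fm A (Sp n)) : Prop :=
  ∀ i, ∀ w ∈ off A z.x i, TA z V W i w

theorem an_a (g : Good A l z) (h : w ∈ off A z.x i) : AnalyticAt ℂ (z.a i) w :=
  (g.hol i).analyticAt ((off_open _ i).mem_nhds h)

theorem ev_ev {p : ℂ → Prop} (h : ∀ᶠ y in 𝓝[≠] w, p y) : ∀ᶠ y in 𝓝[≠] w, ∀ᶠ x in 𝓝 y, p x :=
  (eventually_nhdsWithin_eventually_nhds_iff_of_isOpen isOpen_compl_singleton).2 h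

theorem tc_of_ev (g : Good A l z) {V : Fm A (Sp n)} {W : Sb g.cc}
    (h : ∀ i, ∀ w ∈ off A z.x i, ∀ᶠ y in 𝓝[≠] w, TA z V W.S i y) : TC z V W.S := by
  intro i w hw s hs e
  refine W.mem hw.1 (u := fun y => z.lam • deriv s y + z.a i y *ᵥ s y)
    ((hs.deriv.continuousAt.const_smul z.lam).add (an_mulVec (an_a g hw) hs).continuousAt) ?_
  filter_upwards [h i w hw, mem_nhdsWithin_of_mem_nhds hs.eventually_analyticAt,
    mem_nhdsWithin_of_mem_nhds e.eventually_nhds] with y a b c using a s b c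

theorem ev_off (h : w ∈ off A z.x i) : ∀ᶠ y in 𝓝[≠] w, y ∈ off A z.x i :=
  mem_nhdsWithin_of_mem_nhds ((off_open _ i).mem_nhds h)

theorem ev_ball (h : w ∈ ball (0 : ℂ) A.R) : ∀ᶠ y in 𝓝 w, y ∈ ball (0 : ℂ) A.R :=
  isOpen_ball.mem_nhds h

theorem tc_inf (g : Good A l z) {V W V' W' : Sb g.cc} (h : TC z V.S W.S) (h' : TC z V'.S W'.S) :
    TC z (V ⊓ V').S (W ⊓ W').S := tc_of_ev g fun i w hw => by
  filter_upwards [ev_off hw, W.inf_ev W' i hw.1] with y a b s hs e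
  rw [b]
  refine ⟨h i y a s hs ?_, h' i y a s hs ?_⟩
  · filter_upwards [e, ev_ball a.1] with x c d using Sb.le_def.1 inf_le_left i x d c
  · filter_upwards [e, ev_ball a.1] with x c d using Sb.le_def.1 inf_le_right i x d c

theorem tc_sup (g : Good A l z) {V W V' W' : Sb g.cc} (h : TC z V.S W.S) (h' : TC z V'.S W'.S) :
    TC z (V ⊔ V').S (W ⊔ W').S := tc_of_ev g fun i w hw => by
  obtain ⟨t, ht⟩ := V.sub.fr i w hw.1
  obtain ⟨t', ht'⟩ := V'.sub.fr i w hw.1
  filter_upwards [ev_off hw, ev_ev (V.sup_ev V' i hw.1), exists_ginv (an_fc ht.an ht'.an),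
    mem_nhdsWithin_of_mem_nhds (fr_ev ht), mem_nhdsWithin_of_mem_nhds (fr_ev ht')]
    with y a b ⟨Y, y1, y2⟩ f f' s hs e
  have u := an_mulVec y1 hs
  have u1 : AnalyticAt ℂ (fun x => t x *ᵥ ((Y x *ᵥ s x) ∘ Sum.inl)) y :=
    an_mulVec f.an (AnalyticAt.pi fun k => an_crd u _)
  have u2 : AnalyticAt ℂ (fun x => t' x *ᵥ ((Y x *ᵥ s x) ∘ Sum.inr)) y :=
    an_mulVec f'.an (AnalyticAt.pi fun k => an_crd u _)
  have q : s =ᶠ[𝓝 y] (fun x => t x *ᵥ ((Y x *ᵥ s x) ∘ Sum.inl)) +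
      fun x => t' x *ᵥ ((Y x *ᵥ s x) ∘ Sum.inr) := by
    filter_upwards [e, b, y2, f.rg, f'.rg] with x c1 c2 c3 c4 c5
    rw [c2, ← c4, ← c5] at c1
    obtain ⟨v, hv⟩ : s x ∈ rg (fromCols (t x) (t' x)) := (rg_cols _ _).ge c1
    rw [Pi.add_apply, ← fromCols_mulVec, ← hv, mulVecLin_apply, mulVec_mulVec, mulVec_mulVec, c3]
  have := Submodule.add_mem _
    (Sb.le_def.1 (le_sup_left (b := W')) i y a.1 (h i y a _ u1 (f.rg.mono fun x c => c ▸ ⟨_, rfl⟩)))
    (Sb.le_def.1 (le_sup_right (a := W)) i y a.1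
      (h' i y a _ u2 (f'.rg.mono fun x c => c ▸ ⟨_, rfl⟩)))
  rw [q.deriv_eq, q.self_of_nhds, deriv_add u1.differentiableAt u2.differentiableAt, Pi.add_apply,
    smul_add, mulVec_add, add_add_add_comm]
  exact this

theorem tc_top (g : Good A l z) (V : Fm A (Sp n)) : TC z V (⊤ : Sb g.cc).S :=
  fun i w hw s _ _ => by rw [Sb.top_S hw.1]; trivial

theorem tc_bot (g : Good A l z) (W : Fm A (Sp n)) : TC z (⊥ : Sb g.cc).S W := by
  intro i w hw s _ e
  have q : s =ᶠ[𝓝 w] fun _ => 0 := by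
    filter_upwards [e, ev_ball hw.1] with y a b
    rwa [Sb.bot_S b] at a
  rw [q.deriv_eq, q.self_of_nhds, deriv_const, smul_zero, mulVec_zero, add_zero]
  exact zero_mem _

/-- the normalised degree -/
def dl (d : ℤ) {g : Cy A (Mn n)} {hg : A.Cc g} (V : Sb hg) : ℤ := n * ⌊V.deg⌋ - d * V.r

theorem dl_cast (fr : FRM A) {g : Cy A (Mn n)} {hg : A.Cc g} (V : Sb hg) :
    (dl d V : ℝ) = n * V.deg - d * V.r := by
  obtain ⟨k, e⟩ := V.deg_int fr
  rw [dl, e, Int.floor_intCast]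
  push_cast
  rfl

theorem degM_eq (S : Std A l n d) (g : Good A l z) : A.degM z.g = d :=
  (deg_congr g.cc.det S.cc g.det).trans S.deg

theorem dat_tc (S : Std A l n d) (fr : FRM A) (g : Good A l z) :
    Dat (dl d : Sb g.cc → ℤ) fun V W => TC z V.S W.S where
  bot := by
    have := dl_cast (d := d) fr (⊥ : Sb g.cc)
    rw [Sb.deg_bot, Sb.bot_r, Nat.cast_zero, mul_zero, mul_zero, sub_zero] at this
    exact_mod_cast this
  top := by
    have := dl_cast (d := d) fr (⊤ : Sb g.cc)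
    rw [Sb.deg_top, Sb.top_r, degM_eq S g, mul_comm, sub_self] at this
    exact_mod_cast this
  sup V W := by
    have a := V.deg_supermod W
    have b : ((V ⊔ W).r : ℝ) + (V ⊓ W).r = V.r + W.r := by exact_mod_cast V.r_sup_add_r_inf W
    have c := mul_le_mul_of_nonneg_left a (Nat.cast_nonneg n)
    have : (dl d V : ℝ) + dl d W ≤ dl d (V ⊔ W) + dl d (V ⊓ W) := by
      simp only [dl_cast fr]
      have := congrArg ((d : ℝ) * ·) b
      linarith
    exact_mod_cast this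
  inf_T _ _ _ _ := tc_inf g
  sup_T _ _ _ _ := tc_sup g
  bot_T := tc_bot g _
  top_T := tc_top g _

theorem rk_tc (S : Std A l n d) {g : Cy A (Mn n)} (hg : A.Cc g) :
    Rk (dl d : Sb hg → ℤ) Sb.r n d :=
  ⟨Sb.r_strictMono, Sb.bot_r, Sb.top_r, S.cop, fun V => ⟨⌊V.deg⌋, by rw [dl]; ring⟩⟩

theorem stab_iff_dl (S : Std A l n d) (fr : FRM A) (g : Good A l z) :
    Stab A l z ↔ ∀ V : Sb g.cc, TC z V.S V.S → dl d V ≤ 0 := by
  constructor
  · intro h V hV
    rcases Nat.eq_zero_or_pos V.r with a | a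
    · rw [Sb.eq_bot a, (dat_tc S fr g).bot]
    rcases V.r_le.eq_or_lt with b | b
    · rw [Sb.eq_top b, (dat_tc S fr g).top]
    have := h V.r V.S a b V.sub hV
    rw [S.deg] at this
    have : (dl d V : ℝ) ≤ 0 := by rw [dl_cast fr, Sb.deg]; linarith
    exact_mod_cast this
  · intro h k T a b c e
    have h1 := h (Sb.of g.cc c) fun i w hw s hs f => by
      rw [Sb.of_S c hw.1]
      refine e i w hw s hs ?_
      filter_upwards [f, ev_ball hw.1] with y u v
      rwa [Sb.of_S c v] at u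
    have h2 : dl d (Sb.of g.cc c) ≠ 0 := fun u => by
      rcases (rk_tc S g.cc).zero u with v | v
      · have := congrArg Sb.r v
        rw [Sb.of_r, Sb.bot_r] at this
        omega
      · have := congrArg Sb.r v
        rw [Sb.of_r, Sb.top_r] at this
        omega
    have h3 : (dl d (Sb.of g.cc c) : ℝ) < 0 := by exact_mod_cast lt_of_le_of_ne h1 h2
    rw [dl_cast fr, Sb.of_deg, Sb.of_r] at h3
    rw [S.deg]
    linarith

theorem exists_fil (S : Std A l n d) (fr : FRM A) (g : Good A l z) (s : Stab A l z) :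
    ∃ (N : ℕ) (F : ℤ → Sb g.cc), Tv (fun V W => TC z V.S W.S) N F ∧
      LM (dl d) (fun V W => TC z V.S W.S) F := by
  obtain ⟨M, hM⟩ := deg_bdd g.cc
  obtain ⟨N, F, a, b, -⟩ := exists_lm (dat_tc S fr g) (rk_tc S g.cc) (tc_top g _)
    (C := ⌈n * M + |(d : ℝ)| * n⌉₊) (fun V => by
      have h1 := mul_le_mul_of_nonneg_left (hM V) (Nat.cast_nonneg n)
      have h2 : (V.r : ℝ) ≤ n := by exact_mod_cast V.r_le
      have h3 := mul_le_mul (neg_le_abs (d : ℝ)) h2 (Nat.cast_nonneg _) (abs_nonneg _)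
      have : (dl d V : ℝ) ≤ (⌈n * M + |(d : ℝ)| * n⌉₊ : ℝ) := by
        rw [dl_cast fr]
        linarith [Nat.le_ceil (n * M + |(d : ℝ)| * n)]
      exact_mod_cast this) ((stab_iff_dl S fr g).1 s)
  exact ⟨N, F, a, b⟩

/-- two cocycles which are related by a smooth unipotent map give the same degree -/
theorem degS_eq {g g' : Cy A (Mn n)} (hg : A.Cc g) (hg' : A.Cc g') {Θ : Fm A (Mn n)}
    (sm : A.Sm ∞ Θ) (tr : ∀ i j, ∀ w ∈ A.O i j, Θ i w * g i j w = g' i j w * Θ j (A.tr i j w))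
    (nil : ∀ i, ∀ w ∈ ball (0 : ℂ) A.R, IsNilpotent (Θ i w - 1)) {k : ℕ} {H : Fm A (Sp n)}
    (h : Sub A g k H) (inv : ∀ i, ∀ w ∈ ball (0 : ℂ) A.R, ∀ v ∈ H i w, Θ i w *ᵥ v ∈ H i w) :
    degS A g k H = degS A g' k H := by
  have m := hg'.mtM
  have m' : A.MtM ∞ g fun i w => (Θ i w)ᴴ * A.mtM g' i w * Θ i w :=
    ⟨fun i w hw => (P275HK.cd_mul (P275HK.cd_mul (P275HK.cd_ct (sm.at hw i)) (m.sm.at hw i))
        (sm.at hw i)).contDiffWithinAt,
      fun i w hw => P275DG.pd_gr (m.pos i w hw) (P275HK.inj_of_det (by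
        rw [det_of_nilp (nil i w hw)]; exact one_ne_zero)), fun i j w p => by
        have := congrArg (fun X => Xᴴ * A.mtM g' i w * X) (tr i j w p)
        simp only [m.tr i j w p, conjTranspose_mul, mul_assoc] at this ⊢
        exact this.symm⟩
  rw [degS, degS, P275DG.int_cvS hg hg.mtM m' h]
  refine congrArg (Real.pi⁻¹ * ·) (P275KR.int_congr' fun i w hw => ?_)
  obtain ⟨t, ht⟩ := h.fr i w hw
  rw [P275DG.cvS_lp m' hw ht, P275DG.cvS_lp m hw ht]
  refine congrArg Neg.neg (P275DG.lp_congr ?_)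
  filter_upwards [fr_ev ht, ev_ball hw] with y a b
  have e := a.rg.self_of_nhds
  obtain ⟨Q, hQ⟩ := P275DG.ex_fac (t := t y) (s := Θ i y * t y) fun v => by
    rw [e, ← mulVec_mulVec]
    exact inv i y b _ (e ▸ ⟨v, rfl⟩)
  obtain ⟨L, hL⟩ := exists_linv a.inj
  obtain ⟨r, hr⟩ := nil i y b
  have c : ∀ j : ℕ, (Θ i y - 1) ^ j * t y = t y * (Q - 1) ^ j := fun j => by
    induction j with
    | zero => simp
    | succ j ih =>
      rw [pow_succ, pow_succ', Matrix.mul_assoc, Matrix.sub_mul, hQ, Matrix.one_mul,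
        ← Matrix.mul_one (t y), Matrix.mul_assoc, Matrix.one_mul, ← Matrix.mul_sub,
        ← Matrix.mul_assoc, ih, Matrix.mul_one, Matrix.mul_assoc, ← pow_succ, ← pow_succ']
  have q : Q.det = 1 := det_of_nilp ⟨r, by
    have := congrArg (L * ·) (c r)
    simp only [hr, Matrix.zero_mul, Matrix.mul_zero, ← Matrix.mul_assoc, hL,
      Matrix.one_mul] at this
    exact this.symm⟩
  have : P275DG.gr (fun w => (Θ i w)ᴴ * A.mtM g' i w * Θ i w) t y =
      Qᴴ * P275DG.gr (A.mtM g' i) t y * Q := by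
    rw [P275DG.gr, P275DG.gr, ← P275DG.gr_fac, ← hQ]
    simp only [conjTranspose_mul, Matrix.mul_assoc]
  rw [this, P275DG.gr, P275DG.ld_cg (P275DG.pd_gr (m.pos i y b) a.inj) (by rw [q]; exact one_ne_zero), q]
  simp

end Vale.Agent.P275LM
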